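import Vale.Agent.P273.H225.NkDef
import Vale.Agent.P273.H225.EWn
import Vale.Agent.P273.H604.CutBd

/-!
# P273, row ASY1 (helper225): the final neck bounds from the flat ones

`CutN` collects what is needed of the cut-off functions in the neck; `neckO_of` is the result.
-/

noncomputable section

namespace Vale.Agent.P273.H225

open Set Filter H681 H95 H973 H730 Finset
open scoped Topology ContDiff
open H214 (Bs chiW hh Cf ff EWc EWv etaP FlatFam FlatOn oneOf)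
open H604 (chiI)

/-- The cut-off functions at a neck point. -/
structure NkF (k : Fin 5) (K dl c : ℝ) (q : C6) (d X Y : ℂ) : Prop where
  off : ∀ j, j ≠ k.castSucc → j ≠ k.succ → chiW (bd k q d) j (xn k q X Y) = 0 ∧
    fderiv ℝ (fun p : Bs × ℂ => chiW p.1 j p.2) (bd k q d, xn k q X Y) = 0
  offI : chiI (bd k q d) (xn k q X Y) = 0 ∧
    fderiv ℝ (fun p : Bs × ℂ => chiI p.1 p.2) (bd k q d, xn k q X Y) = 0
  pair1 : EWn.Pair (bd k q d) k.castSucc k.succ (q k.castSucc) (-d) dl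
  pair2 : EWn.Pair (bd k q d) k.succ k.castSucc (q k.castSucc) d dl
  dchi : ∀ j, j = k.castSucc ∨ j = k.succ → ∀ (δ : C6) (lX lY : ℂ),
    |fderiv ℝ (fun p : Bs × ℂ => chiW p.1 j p.2) (bd k q d, xn k q X Y)
      (nv k δ d X Y lX lY)| ≤ K * (‖δ‖ + ‖lX‖ + ‖lY‖)
  euler : ∀ j, j = k.castSucc ∨ j = k.succ →
    |fderiv ℝ (fun p : Bs × ℂ => chiW p.1 j p.2) (bd k q d, xn k q X Y)
      (nv k 0 d X Y (((yl c d)⁻¹ * Real.log (‖X‖ / c) : ℝ) : ℂ)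
        (((yl c d)⁻¹ * Real.log (‖Y‖ / c) : ℝ) : ℂ))| ≤ K * (yl c d)⁻¹
  dle : ‖d‖ ≤ K * (yl c d)⁻¹
  ele : ‖q k.castSucc‖ ≤ K

/-- **The cut-off functions near the divisor.** -/
def CutN : Prop := ∀ k : Fin 5, ∀ q₀ ∈ H828.XD k, ∃ U ∈ 𝓝 q₀, ∃ c₀ > 0, ∃ dl > 0, ∃ K > 0,
  ∀ c, 0 < c → c ≤ c₀ → ∃ M₀ : ℝ, 0 < M₀ ∧
  ∀ q d, Adm k U c M₀ q d → ∀ X Y v, InNeck k c q d X Y v → NkF k K dl c q d X Y

theorem adm_mono {k : Fin 5} {U V : Set C6} {c M N : ℝ} {q : C6} {d : ℂ} (h : Adm k U c M q d)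
    (hU : U ⊆ V) (hM : N ≤ M) : Adm k V c N q d :=
  ⟨hU h.qU, h.qX, h.d0, hM.trans h.len, h.mem⟩

theorem chiW_mem (b : Bs) (j : Fin 6) (x : ℂ) : 0 ≤ chiW b j x ∧ chiW b j x ≤ 1 :=
  ⟨H214.chiW_nonneg b j x, H214.chiW_le_one b j x⟩

theorem isCl_alc (k : Fin 5) : IsCl (alc k) := by
  unfold IsCl
  rw [Fin.sum_univ_six]
  fin_cases k <;> norm_num [alc, Fin.ext_iff]

/-- the value of the form after the cut-offs, in one direction -/
theorem abs_etaP_le {η : Bs → ℂ → ℂ → (Bs × ℂ →L[ℝ] ℝ)} {A : Bs → (ℂ × ℂ →L[ℝ] ℝ)}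
    (hF : FlatOn XX η A) {k : Fin 5} {K dl c : ℝ} {q : C6} {d X Y v : ℂ}
    (hN : NkF k K dl c q d X Y) (hb : bd k q d ∈ XX)
    (hv : On1 false (bd k q d, xn k q X Y) v) (w : Bs × ℂ) {a D κ : ℝ}
    (hD : 0 ≤ D) (hκ : 0 ≤ κ)
    (h1 : |η (bd k q d) (xn k q X Y) v w| ≤ a)
    (h2 : ∀ j, j = k.castSucc ∨ j = k.succ →
      |fderiv ℝ (fun p : Bs × ℂ => chiW p.1 j p.2) (bd k q d, xn k q X Y) w| ≤ D)
    (h3 : ∀ j, j = k.castSucc ∨ j = k.succ →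
      32 * ‖xn k q X Y - bd k q d j‖ ^ 2 ≤ hh (bd k q d) j →
      |A (bd k q d) (EWv (bd k q d) j (xn k q X Y) v)| ≤ κ) :
    |etaP η A (bd k q d) (xn k q X Y) v w| ≤ 7 * a + 6 * (D * κ) := by
  set b := bd k q d with hbdef
  set x := xn k q X Y with hxdef
  have hv1 : v ^ 2 = ff (b, x) := by rw [hv.1, H214.pol_false]
  have hff : ff (b, x) ≠ 0 := by rw [← hv1]; exact pow_ne_zero 2 hv.2
  have hC : b ∈ Cf := hF.sub hb
  rw [H604.etaP_formula hF hb hff hv1]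
  have e1 : ∀ j, |fderiv ℝ (fun p : Bs × ℂ => chiW p.1 j p.2) (b, x) w * A b (EWv b j x v)| ≤
      D * κ := by
    intro j
    by_cases hj : j = k.castSucc ∨ j = k.succ
    · by_cases h5 : 32 * ‖x - b j‖ ^ 2 ≤ hh b j
      · rw [abs_mul]
        exact mul_le_mul (h2 j hj) (h3 j hj h5) (abs_nonneg _) hD
      · rw [H604.fderiv_chiW_eq_zero hC (Or.inr (le_of_lt (not_le.1 h5)))]
        simp only [_root_.zero_apply, zero_mul, abs_zero]
        positivity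
    · rw [not_or] at hj
      rw [(hN.off j hj.1 hj.2).2]
      simp only [_root_.zero_apply, zero_mul, abs_zero]
      positivity
  have e2 : |∑ j, fderiv ℝ (fun p : Bs × ℂ => chiW p.1 j p.2) (b, x) w * A b (EWv b j x v)| ≤
      6 * (D * κ) := by
    refine (Finset.abs_sum_le_sum_abs _ _).trans ?_
    refine (Finset.sum_le_sum fun j _ => e1 j).trans ?_
    simp
  have e3 : |1 - ∑ j, chiW b j x| ≤ 7 := by
    have h6 : 0 ≤ ∑ j, chiW b j x := Finset.sum_nonneg fun j _ => (chiW_mem b j x).1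
    have h7 : ∑ j, chiW b j x ≤ 6 := by
      refine (Finset.sum_le_sum fun j _ => (chiW_mem b j x).2).trans ?_
      simp
    rw [abs_le]
    constructor <;> linarith
  have e4 : ((1 - (∑ j, chiW b j x) - chiI b x) • η b x v +
      (chiI b x * H604.sgI b x v) • (H604.Cinf η A b).comp (ContinuousLinearMap.fst ℝ Bs ℂ) -
      (∑ j, (fderiv ℝ (fun q : Bs × ℂ => chiW q.1 j q.2) (b, x)).smulRight (A b (EWv b j x v))) -
      (fderiv ℝ (fun q : Bs × ℂ => chiI q.1 q.2) (b, x)).smulRight (A b (H214.EIv b x v))) w =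
      (1 - ∑ j, chiW b j x) * η b x v w -
        ∑ j, fderiv ℝ (fun p : Bs × ℂ => chiW p.1 j p.2) (b, x) w * A b (EWv b j x v) := by
    rw [hN.offI.1, hN.offI.2]
    simp only [sub_apply, add_apply, smul_apply, _root_.sum_apply,
      ContinuousLinearMap.smulRight_apply, smul_eq_mul, _root_.zero_apply, zero_mul, sub_zero,
      add_zero]
  rw [e4]
  calc _ ≤ |(1 - ∑ j, chiW b j x) * η b x v w| +
        |∑ j, fderiv ℝ (fun p : Bs × ℂ => chiW p.1 j p.2) (b, x) w * A b (EWv b j x v)| :=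
        abs_sub _ _
    _ ≤ 7 * a + 6 * (D * κ) := by
        refine add_le_add ?_ e2
        rw [abs_mul]
        exact mul_le_mul e3 h1 (abs_nonneg _) (by norm_num)

/-- the cut off primitive at a neck point: crude bound -/
theorem abs_EW_crude {k : Fin 5} {K dl c : ℝ} {q : C6} {d X Y v : ℂ}
    (hN : NkF k K dl c q d X Y) (hv : On1 false (bd k q d, xn k q X Y) v)
    (hd : ‖d‖ ≤ K) (A : ℂ × ℂ →L[ℝ] ℝ) (j : Fin 6) (hj : j = k.castSucc ∨ j = k.succ)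
    (h : 32 * ‖xn k q X Y - bd k q d j‖ ^ 2 ≤ hh (bd k q d) j) :
    |A (EWv (bd k q d) j (xn k q X Y) v)| ≤ 1024 / dl ^ 2 * (1 + 2 * K) * ‖A‖ := by
  have hv1 : v ^ 2 = ∏ i, (xn k q X Y - bd k q d i) := by rw [hv.1, H214.pol_false]; rfl
  have hdl := hN.pair1.dl0
  have he := hN.ele
  rw [← Real.norm_eq_abs]
  rcases hj with rfl | rfl
  · refine (EWn.EWv_neck' hN.pair1 h hv1 A).trans ?_
    rw [norm_neg]
    exact mul_le_mul_of_nonneg_right (mul_le_mul_of_nonneg_left (by linarith) (by positivity))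
      (norm_nonneg _)
  · refine (EWn.EWv_neck' hN.pair2 h hv1 A).trans ?_
    exact mul_le_mul_of_nonneg_right (mul_le_mul_of_nonneg_left (by linarith) (by positivity))
      (norm_nonneg _)

/-- the cut off primitive at a neck point: bound with a small coefficient of the logarithm -/
theorem abs_EW_small {k : Fin 5} {K dl c : ℝ} {q : C6} {d X Y v : ℂ}
    (hN : NkF k K dl c q d X Y) (hv : On1 false (bd k q d, xn k q X Y) v)
    (A : ℂ × ℂ →L[ℝ] ℝ) {κ : ℝ} (hκ : 0 ≤ κ)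
    (hA : ∀ z : ℂ, |A (z, q k.castSucc * z)| ≤ κ * ‖z‖) (j : Fin 6)
    (hj : j = k.castSucc ∨ j = k.succ)
    (h : 32 * ‖xn k q X Y - bd k q d j‖ ^ 2 ≤ hh (bd k q d) j) :
    |A (EWv (bd k q d) j (xn k q X Y) v)| ≤ 1024 / dl ^ 2 * (κ + ‖A‖ * ‖d‖) := by
  have hv1 : v ^ 2 = ∏ i, (xn k q X Y - bd k q d i) := by rw [hv.1, H214.pol_false]; rfl
  rw [← Real.norm_eq_abs]
  rcases hj with rfl | rfl
  · refine (EWn.EWv_neck hN.pair1 h hv1 A hκ fun z => ?_).trans ?_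
    · rw [Real.norm_eq_abs]; exact hA z
    · rw [norm_neg]
  · refine EWn.EWv_neck hN.pair2 h hv1 A hκ fun z => ?_
    rw [Real.norm_eq_abs]; exact hA z

/-- **The neck bounds of the one mark gauge.** -/
theorem neckO_of_cut (Φ : FlatFam) (hC : CutN) (hN : NeckF Φ) (hA : BaseA Φ) :
    NeckO (oneOf Φ) := by
  intro k q₀ hq₀
  obtain ⟨U1, hU1, c1, hc1, dl, hdl, K, hK, H1⟩ := hC k q₀ hq₀
  obtain ⟨U2, hU2, c2, hc2, H2⟩ := hN k q₀ hq₀
  obtain ⟨U3, hU3, c3, hc3, H3⟩ := hA k q₀ hq₀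
  refine ⟨U1 ∩ U2 ∩ U3, inter_mem (inter_mem hU1 hU2) hU3, min c1 (min c2 c3),
    lt_min hc1 (lt_min hc2 hc3), fun c hc hcle => ?_⟩
  obtain ⟨M1, hM1, H1⟩ := H1 c hc (hcle.trans (min_le_left _ _))
  obtain ⟨M2, B2, hM2, hB2, H2⟩ :=
    H2 c hc (hcle.trans ((min_le_right _ _).trans (min_le_left _ _)))
  obtain ⟨M3, B3, hM3, hB3, H3⟩ :=
    H3 c hc (hcle.trans ((min_le_right _ _).trans (min_le_right _ _)))
  have hCpos : 0 < 1024 / dl ^ 2 * (1 + 2 * K) := by positivity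
  set E : ℝ := 1024 / dl ^ 2 * (1 + 2 * K) with hE
  refine ⟨max 1 (max M1 (max M2 M3)), 7 * B2 + 6 * (K * (E * B3)), by positivity, by positivity,
    fun q d hAdm X Y v hIn => ?_⟩
  have hM : (1 : ℝ) ≤ yl c d := (le_max_left _ _).trans hAdm.len
  have F1 := H1 q d (adm_mono hAdm (fun u hu => hu.1.1)
    ((le_max_left _ _).trans (le_max_right _ _))) X Y v hIn
  have F2 := H2 q d (adm_mono hAdm (fun u hu => hu.1.2)
    ((le_max_left _ _).trans ((le_max_right _ _).trans (le_max_right _ _)))) X Y v hIn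
  have F3 := H3 q d (adm_mono hAdm (fun u hu => hu.2)
    ((le_max_right _ _).trans ((le_max_right _ _).trans (le_max_right _ _))))
  have hb := hAdm.mem
  have hv := hIn.hv
  set t : ℝ := (yl c d)⁻¹ with ht
  have ht0 : 0 < t := by rw [ht]; positivity
  have ht1 : t ≤ 1 := by rw [ht]; exact inv_le_one_of_one_le₀ hM
  have hd : ‖d‖ ≤ K * t := F1.dle
  have hdK : ‖d‖ ≤ K := hd.trans (by nlinarith)
  have red : ∀ ξ w, (oneOf Φ).η ξ false (bd k q d, xn k q X Y) v w =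
      etaP (Φ.η ξ) (Φ.A ξ) (bd k q d) (xn k q X Y) v w := by
    intro ξ w
    change H214.etaC (Φ.η ξ) (Φ.A ξ) false (bd k q d, xn k q X Y) v w = _
    rw [H214.etaC_false]
  -- bounds of the cut off primitives
  have W0 : ∀ ξ, IsCl ξ → ∀ j, j = k.castSucc ∨ j = k.succ →
      32 * ‖xn k q X Y - bd k q d j‖ ^ 2 ≤ hh (bd k q d) j →
      |Φ.A ξ (bd k q d) (EWv (bd k q d) j (xn k q X Y) v)| ≤ E * B3 * ‖ξ‖ := by
    intro ξ hξ j hj h
    refine (abs_EW_crude F1 hv hdK (Φ.A ξ (bd k q d)) j hj h).trans ?_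
    rw [mul_assoc E]
    exact mul_le_mul_of_nonneg_left (F3 ξ hξ).1 hCpos.le
  have W1 : ∀ ξ, IsCl ξ → ξ k.castSucc = ξ k.succ → ∀ j, j = k.castSucc ∨ j = k.succ →
      32 * ‖xn k q X Y - bd k q d j‖ ^ 2 ≤ hh (bd k q d) j →
      |Φ.A ξ (bd k q d) (EWv (bd k q d) j (xn k q X Y) v)| ≤ E * B3 * ‖ξ‖ * t := by
    intro ξ hξ h0 j hj h
    refine (abs_EW_small F1 hv (Φ.A ξ (bd k q d)) (κ := B3 * ‖ξ‖ * t) (by positivity)
      ((F3 ξ hξ).2.1 h0) j hj h).trans ?_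
    have h5 : ‖Φ.A ξ (bd k q d)‖ * ‖d‖ ≤ (B3 * ‖ξ‖) * (K * t) :=
      mul_le_mul (F3 ξ hξ).1 hd (norm_nonneg _) (by positivity)
    have h6 : (0 : ℝ) ≤ B3 * ‖ξ‖ * t := by positivity
    calc 1024 / dl ^ 2 * (B3 * ‖ξ‖ * t + ‖Φ.A ξ (bd k q d)‖ * ‖d‖)
        ≤ 1024 / dl ^ 2 * ((1 + 2 * K) * (B3 * ‖ξ‖ * t)) := by
          refine mul_le_mul_of_nonneg_left ?_ (by positivity)
          nlinarith
      _ = E * B3 * ‖ξ‖ * t := by rw [hE]; ring
  have hal : IsCl (alc k) := isCl_alc k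
  have W2 : ∀ j, j = k.castSucc ∨ j = k.succ →
      32 * ‖xn k q X Y - bd k q d j‖ ^ 2 ≤ hh (bd k q d) j →
      |Φ.A (alc k) (bd k q d) (EWv (bd k q d) j (xn k q X Y) v)| ≤ E * B3 * t := by
    intro j hj h
    refine (abs_EW_crude F1 hv hdK (Φ.A (alc k) (bd k q d)) j hj h).trans ?_
    rw [mul_assoc E]
    exact mul_le_mul_of_nonneg_left (F3 _ hal).2.2 hCpos.le
  refine ⟨fun δ lX lY ξ hξ => ?_, fun ξ hξ => ?_⟩
  · obtain ⟨G0, G1, G2⟩ := F2.1 δ lX lY ξ hξ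
    have hS : 0 ≤ ‖δ‖ + ‖lX‖ + ‖lY‖ := by positivity
    have hDj : ∀ j, j = k.castSucc ∨ j = k.succ →
        |fderiv ℝ (fun p : Bs × ℂ => chiW p.1 j p.2) (bd k q d, xn k q X Y)
          (nv k δ d X Y lX lY)| ≤ K * (‖δ‖ + ‖lX‖ + ‖lY‖) := fun j hj => F1.dchi j hj δ lX lY
    have hD0 : 0 ≤ K * (‖δ‖ + ‖lX‖ + ‖lY‖) := by positivity
    refine ⟨?_, fun h0 => ?_, ?_⟩
    · rw [red]
      refine (abs_etaP_le (Φ.flat ξ hξ) F1 hb hv _ hD0 (by positivity) G0 hDj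
        (W0 ξ hξ)).trans (le_of_eq ?_)
      ring
    · rw [red]
      refine (abs_etaP_le (Φ.flat ξ hξ) F1 hb hv _ hD0 (by positivity) (G1 h0) hDj
        (W1 ξ hξ h0)).trans ?_
      have h7 : t * (‖δ‖ + ‖lX‖ + ‖lY‖) ≤
          ‖δ‖ + (‖X‖ + t) * ‖lX‖ + (‖Y‖ + t) * ‖lY‖ := by
        have h8 : t * ‖δ‖ ≤ ‖δ‖ := mul_le_of_le_one_left (norm_nonneg _) ht1
        have h9 : 0 ≤ ‖X‖ * ‖lX‖ := by positivity
        have h10 : 0 ≤ ‖Y‖ * ‖lY‖ := by positivity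
        nlinarith
      have h11 : 0 ≤ 6 * (K * (E * B3)) * ‖ξ‖ := by positivity
      calc _ = 7 * B2 * ‖ξ‖ * (‖δ‖ + (‖X‖ + t) * ‖lX‖ + (‖Y‖ + t) * ‖lY‖) +
            6 * (K * (E * B3)) * ‖ξ‖ * (t * (‖δ‖ + ‖lX‖ + ‖lY‖)) := by ring
        _ ≤ 7 * B2 * ‖ξ‖ * (‖δ‖ + (‖X‖ + t) * ‖lX‖ + (‖Y‖ + t) * ‖lY‖) +
            6 * (K * (E * B3)) * ‖ξ‖ *
              (‖δ‖ + (‖X‖ + t) * ‖lX‖ + (‖Y‖ + t) * ‖lY‖) := by
            gcongr
        _ = _ := by ring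
    · rw [red]
      refine (abs_etaP_le (Φ.flat _ hal) F1 hb hv _ hD0 (by positivity) G2 hDj
        W2).trans (le_of_eq ?_)
      ring
  · obtain ⟨G0, G2⟩ := F2.2 ξ hξ
    have hD0 : 0 ≤ K * t := by positivity
    refine ⟨?_, ?_⟩
    · rw [red]
      refine (abs_etaP_le (Φ.flat ξ hξ) F1 hb hv _ hD0 (by positivity) G0 F1.euler
        (W0 ξ hξ)).trans (le_of_eq ?_)
      ring
    · rw [red]
      refine (abs_etaP_le (Φ.flat _ hal) F1 hb hv _ hD0 (by positivity) G2 F1.euler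
        W2).trans (le_of_eq ?_)
      ring

end Vale.Agent.P273.H225

end
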