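import Vale.Agent.P273.H225.FlipAbs
import Vale.Agent.P273.H857.Def

/-! P273 / H225: lower bounds along families of graph paths, for the definitions of `H857.Def`. -/

namespace Vale.Agent.P273.H225

open Complex Set Filter Topology MeasureTheory
open Vale.Agent.P273.H857 (C6 br Sb sq Dm IsPath Adm igd PG P)
open scoped ContDiff Real

noncomputable section

theorem gam_eq (x : ℂ) (g : ℝ → ℝ) (t : ℝ) : H857.gam x g t = gam x g t := by
  simp only [H857.gam, gam]; ring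

theorem norm_sq (B : Finset (Fin 6)) (b : C6) (z : ℂ) :
    ‖sq B b z‖ = ∏ l, Real.sqrt ‖z - b l‖ := by
  unfold H857.sq
  rw [norm_prod]
  exact Finset.prod_congr rfl fun l _ => H857.norm_br B l _

theorem prod_lower1 {r : Fin 6 → ℝ} (j : Fin 6) {κ t : ℝ} (hκ : 0 < κ) (ht : 0 < t)
    (h : ∀ l, l ≠ j → κ * (1 + t) ≤ r l) (h0 : κ * t ≤ r j) :
    κ ^ 3 * (1 + t) ^ 2 * Real.sqrt t ≤ ∏ l, Real.sqrt (r l) := by
  rw [← Finset.mul_prod_erase _ _ (Finset.mem_univ j)]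
  have h1 : Real.sqrt (κ * (1 + t)) ^ 5 ≤ ∏ l ∈ Finset.univ.erase j, Real.sqrt (r l) := by
    have hc : (Finset.univ.erase j : Finset (Fin 6)).card = 5 := by
      rw [Finset.card_erase_of_mem (Finset.mem_univ j)]; simp
    rw [← hc, ← Finset.prod_const]
    refine Finset.prod_le_prod (fun _ _ => Real.sqrt_nonneg _) fun l hl => ?_
    exact Real.sqrt_le_sqrt (h l (Finset.ne_of_mem_erase hl))
  have h2 : Real.sqrt κ * Real.sqrt t ≤ Real.sqrt (r j) := by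
    rw [← Real.sqrt_mul hκ.le]
    exact Real.sqrt_le_sqrt h0
  have h3 : (κ * (1 + t)) ^ 2 * Real.sqrt κ ≤ Real.sqrt (κ * (1 + t)) ^ 5 := by
    have e : Real.sqrt (κ * (1 + t)) ^ 5 = (κ * (1 + t)) ^ 2 * Real.sqrt (κ * (1 + t)) := by
      have := Real.sq_sqrt (by positivity : 0 ≤ κ * (1 + t))
      calc _ = (Real.sqrt (κ * (1 + t)) ^ 2) ^ 2 * Real.sqrt (κ * (1 + t)) := by ring
        _ = _ := by rw [this]
    rw [e]
    refine mul_le_mul_of_nonneg_left (Real.sqrt_le_sqrt ?_) (by positivity)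
    nlinarith
  calc κ ^ 3 * (1 + t) ^ 2 * Real.sqrt t
      = (Real.sqrt κ * Real.sqrt t) * ((κ * (1 + t)) ^ 2 * Real.sqrt κ) := by
        have := Real.mul_self_sqrt hκ.le
        calc _ = (Real.sqrt κ * Real.sqrt κ) * κ ^ 2 * (1 + t) ^ 2 * Real.sqrt t := by
              rw [this]; ring
          _ = _ := by ring
    _ ≤ Real.sqrt (r j) * ∏ l ∈ Finset.univ.erase j, Real.sqrt (r l) :=
        mul_le_mul h2 (h3.trans h1) (by positivity) (Real.sqrt_nonneg _)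

theorem prod_lower2 {r : Fin 6 → ℝ} {j m : Fin 6} (hjm : j ≠ m) {κ t u : ℝ} (hκ : 0 < κ)
    (ht : 0 < t) (h : ∀ l, l ≠ j → l ≠ m → κ * (1 + t) ≤ r l) (h0 : κ * t ≤ r j)
    (hu : u ≤ r m) :
    Real.sqrt κ * κ ^ 2 * (1 + t) ^ 2 * Real.sqrt t * Real.sqrt u ≤ ∏ l, Real.sqrt (r l) := by
  rw [← Finset.mul_prod_erase _ _ (Finset.mem_univ j),
    ← Finset.mul_prod_erase _ _ (Finset.mem_erase.2 ⟨hjm.symm, Finset.mem_univ m⟩)]
  have h1 : Real.sqrt (κ * (1 + t)) ^ 4 ≤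
      ∏ l ∈ (Finset.univ.erase j).erase m, Real.sqrt (r l) := by
    have hc : ((Finset.univ.erase j).erase m : Finset (Fin 6)).card = 4 := by
      rw [Finset.card_erase_of_mem (Finset.mem_erase.2 ⟨hjm.symm, Finset.mem_univ m⟩),
        Finset.card_erase_of_mem (Finset.mem_univ j)]; simp
    rw [← hc, ← Finset.prod_const]
    refine Finset.prod_le_prod (fun _ _ => Real.sqrt_nonneg _) fun l hl => ?_
    have h5 := Finset.mem_erase.1 hl
    exact Real.sqrt_le_sqrt (h l (Finset.mem_erase.1 h5.2).1 h5.1)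
  have h2 : Real.sqrt κ * Real.sqrt t ≤ Real.sqrt (r j) := by
    rw [← Real.sqrt_mul hκ.le]
    exact Real.sqrt_le_sqrt h0
  have h3 : Real.sqrt (κ * (1 + t)) ^ 4 = (κ * (1 + t)) ^ 2 := by
    have := Real.sq_sqrt (by positivity : 0 ≤ κ * (1 + t))
    calc _ = (Real.sqrt (κ * (1 + t)) ^ 2) ^ 2 := by ring
      _ = _ := by rw [this]
  have h4 : Real.sqrt u ≤ Real.sqrt (r m) := Real.sqrt_le_sqrt hu
  rw [h3] at h1
  calc Real.sqrt κ * κ ^ 2 * (1 + t) ^ 2 * Real.sqrt t * Real.sqrt u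
      = (Real.sqrt κ * Real.sqrt t) * (Real.sqrt u * (κ * (1 + t)) ^ 2) := by ring
    _ ≤ Real.sqrt (r j) * (Real.sqrt (r m) * ∏ l ∈ (Finset.univ.erase j).erase m,
        Real.sqrt (r l)) :=
      mul_le_mul h2 (mul_le_mul h4 h1 (by positivity) (Real.sqrt_nonneg _)) (by positivity)
        (Real.sqrt_nonneg _)

/-- uniform lower bound for the distance to a point off all the paths -/
theorem lowb {x c : ℂ} {g₀ g₁ : ℝ → ℝ} (c₀ : Continuous g₀) (c₁ : Continuous g₁)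
    (h : ∀ t, 0 ≤ t → ∀ s ∈ Icc (0 : ℝ) 1, gam x (sg g₀ g₁ s) t ≠ c) :
    ∃ κ, 0 < κ ∧ ∀ t, 0 ≤ t → ∀ s ∈ Icc (0 : ℝ) 1,
      κ * (1 + t) ≤ ‖gam x (sg g₀ g₁ s) t - c‖ := by
  set T : ℝ := 2 * |c.re - x.re| + 1 with hT
  have hT0 : 0 < T := by positivity
  set Φ : ℝ × ℝ → ℝ := fun p => ‖gam x (sg g₀ g₁ p.2) p.1 - c‖ with hΦ
  have hc : Continuous Φ := by
    simp only [hΦ, gam, sg]; fun_prop
  have hK : IsCompact (Icc (0 : ℝ) T ×ˢ Icc (0 : ℝ) 1) := isCompact_Icc.prod isCompact_Icc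
  obtain ⟨p, hp, hmin⟩ := hK.exists_isMinOn ⟨(0, 0), ⟨⟨le_rfl, hT0.le⟩, by simp⟩⟩
    hc.continuousOn
  have hpos : 0 < Φ p := by
    simp only [hΦ]
    exact norm_pos_iff.2 (sub_ne_zero.2 (h _ hp.1.1 _ hp.2))
  refine ⟨min (1 / 2) (Φ p / (1 + T)), lt_min (by norm_num) (by positivity), fun t ht s hs => ?_⟩
  rcases le_or_gt t T with h1 | h1
  · have h2 : Φ p ≤ Φ (t, s) := hmin ⟨⟨ht, h1⟩, hs⟩
    calc _ ≤ Φ p / (1 + T) * (1 + t) := mul_le_mul_of_nonneg_right (min_le_right _ _) (by linarith)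
      _ ≤ Φ p := by
        rw [div_mul_eq_mul_div, div_le_iff₀ (by linarith)]
        exact mul_le_mul_of_nonneg_left (by linarith) hpos.le
      _ ≤ _ := h2
  · calc _ ≤ 1 / 2 * (1 + t) := mul_le_mul_of_nonneg_right (min_le_left _ _) (by linarith)
      _ ≤ |(gam x (sg g₀ g₁ s) t - c).re| := by
        rw [sub_re, gam_re]
        have h2 : c.re - x.re ≤ |c.re - x.re| := le_abs_self _
        have h3 : x.re + t - c.re ≤ |x.re + t - c.re| := le_abs_self _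
        linarith
      _ ≤ _ := abs_re_le_norm _

theorem IsPath.lin {g : ℝ → ℝ} (hg : IsPath g) : ∃ K, 0 ≤ K ∧ (∀ t, |deriv g t| ≤ K) ∧
    ∀ t, 0 ≤ t → |g t| ≤ K * t := by
  obtain ⟨K, hK⟩ := hg.bdd
  have hd : Differentiable ℝ g := hg.smooth.differentiable (by simp)
  refine ⟨K, (abs_nonneg _).trans (hK 0), hK, fun t ht => ?_⟩
  have := Convex.norm_image_sub_le_of_norm_deriv_le (f := g) (s := univ) (C := K)
    (fun x _ => hd x) (fun x _ => by simpa using hK x) convex_univ (mem_univ 0) (mem_univ t)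
  rw [hg.zero, sub_zero, sub_zero, Real.norm_eq_abs, Real.norm_eq_abs, abs_of_nonneg ht] at this
  exact this

theorem IsPath.cd {g : ℝ → ℝ} (hg : IsPath g) : ContDiff ℝ 1 g :=
  hg.smooth.of_le (by exact_mod_cast le_top)

theorem sg_eq (g₀ g₁ : ℝ → ℝ) (s : ℝ) : sg g₀ g₁ s = fun t => (1 - s) * g₀ t + s * g₁ t := by
  funext t; simp only [sg]; ring

/-- upper bound for the points -/
theorem upb (x : ℂ) {g₀ g₁ : ℝ → ℝ} (h₀ : IsPath g₀) (h₁ : IsPath g₁) :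
    ∃ C, 1 ≤ C ∧ ∀ t, 0 ≤ t → ∀ s ∈ Icc (0 : ℝ) 1, ‖gam x (sg g₀ g₁ s) t‖ ≤ C * (1 + t) := by
  obtain ⟨K, hK0, -, hK⟩ := IsPath.lin h₀
  obtain ⟨L, hL0, -, hL⟩ := IsPath.lin h₁
  refine ⟨‖x‖ + 1 + K + L, by linarith [norm_nonneg x], fun t ht s hs => ?_⟩
  have h1 : |sg g₀ g₁ s t| ≤ (K + L) * t := by
    have a := hK t ht
    have b := hL t ht
    rw [sg_eq]
    simp only
    refine (abs_add_le _ _).trans ?_
    rw [abs_mul, abs_mul, abs_of_nonneg hs.1, abs_of_nonneg (by linarith [hs.2] : 0 ≤ 1 - s)]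
    have h5 : (1 - s) * |g₀ t| ≤ 1 * (K * t) :=
      mul_le_mul (by linarith [hs.1]) a (abs_nonneg _) zero_le_one
    have h6 : s * |g₁ t| ≤ 1 * (L * t) := mul_le_mul hs.2 b (abs_nonneg _) zero_le_one
    linarith
  have h2 : ‖gam x (sg g₀ g₁ s) t‖ ≤ ‖x‖ + t + |sg g₀ g₁ s t| := by
    rw [gam]
    refine (norm_add_le _ _).trans (add_le_add ((norm_add_le _ _).trans ?_) ?_)
    · rw [Complex.norm_real, Real.norm_eq_abs, abs_of_nonneg ht]
    · rw [norm_mul, norm_I, mul_one, Complex.norm_real, Real.norm_eq_abs]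
  have hx := norm_nonneg x
  nlinarith [mul_nonneg hx ht]

theorem re_bound (x c : ℂ) (g : ℝ → ℝ) (t : ℝ) : |t - (c.re - x.re)| ≤ ‖gam x g t - c‖ := by
  refine le_trans (le_of_eq ?_) (abs_re_le_norm _)
  rw [sub_re, gam_re]; congr 1; ring

end

end Vale.Agent.P273.H225
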