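import Vale.Agent.P273.H225.Homot

/-! P273 / H225: the flip rule, abstract form. The integrand changes its sign on one side of a
vertical line through a root. -/

namespace Vale.Agent.P273.H225

open Complex Set Filter Topology MeasureTheory
open scoped ContDiff Real

noncomputable section

/-- The flip rule, abstract form. -/
theorem flip_abs {f f' : ℂ → ℂ} {x : ℂ} {gp gm : ℝ → ℝ} (hp : ContDiff ℝ 1 gp)
    (hm : ContDiff ℝ 1 gm) {C s₀ tm : ℝ} {M : ℝ → ℝ} (hM : IntegrableOn M (Ioi 0))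
    (hs₀ : s₀ ∈ Ioo (0 : ℝ) 1) (htm : 0 < tm)
    (hd1 : ∀ t, 0 ≤ t → |deriv gp t| ≤ C) (hd0 : ∀ t, 0 ≤ t → |deriv gm t| ≤ C)
    (hI1 : ∀ s ∈ Ioc s₀ 1, ∫ t in Ioi (0 : ℝ), f (gam x (sg gm gp s) t) * dgam (sg gm gp s) t =
      ∫ t in Ioi (0 : ℝ), f (gam x gp t) * dgam gp t)
    (hI2 : ∀ s ∈ Ico 0 s₀, ∫ t in Ioi (0 : ℝ), f' (gam x (sg gm gp s) t) * dgam (sg gm gp s) t =
      ∫ t in Ioi (0 : ℝ), f' (gam x gm t) * dgam gm t)
    (hneg : ∀ z : ℂ, z.re < x.re + tm → f' z = -f z)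
    (hpos : ∀ z : ℂ, x.re + tm < z.re → f' z = f z)
    (hdom : ∀ s ∈ Icc (0 : ℝ) 1, ∀ t, 0 < t → t ≠ tm →
      ‖f (gam x (sg gm gp s) t)‖ ≤ M t)
    (hcont : ∀ s ∈ Icc (0 : ℝ) 1, ∀ t, 0 < t → t ≠ tm → ContinuousAt f (gam x (sg gm gp s) t)) :
    (∫ t in Ioi (0 : ℝ), f (gam x gp t) * dgam gp t) +
      (∫ t in Ioi (0 : ℝ), f' (gam x gm t) * dgam gm t) =
      2 * ∫ t in Ioi tm, f (gam x (sg gm gp s₀) t) * dgam (sg gm gp s₀) t := by
  have hs₀' : s₀ ∈ Icc (0 : ℝ) 1 := ⟨hs₀.1.le, hs₀.2.le⟩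
  have hC : 0 ≤ C := (abs_nonneg _).trans (hd0 0 le_rfl)
  have hdgn : ∀ s ∈ Icc (0 : ℝ) 1, ∀ t, 0 ≤ t → ‖dgam (sg gm gp s) t‖ ≤ 1 + C := by
    intro s hs t ht
    rw [dgam, deriv_sg hm hp]
    refine (norm_add_le _ _).trans ?_
    have h1 : |sg (deriv gm) (deriv gp) s t| ≤ C := by
      have a := abs_le.1 (hd0 t ht)
      have b := abs_le.1 (hd1 t ht)
      rw [sg, abs_le]
      constructor <;> nlinarith [hs.1, hs.2]
    rw [norm_one, norm_mul, norm_I, mul_one, Complex.norm_real, Real.norm_eq_abs]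
    linarith
  set F : ℝ → ℝ → ℂ := fun s t => f (gam x (sg gm gp s) t) * dgam (sg gm gp s) t with hF
  -- the second integrand
  set ε : ℝ → ℂ := fun t => if t < tm then -1 else 1 with hε
  have hεn : ∀ t, ‖ε t‖ = 1 := by
    intro t; simp only [hε]; split_ifs <;> simp
  have hF' : ∀ s t, t ≠ tm →
      f' (gam x (sg gm gp s) t) * dgam (sg gm gp s) t = ε t * F s t := by
    intro s t ht
    rcases lt_or_gt_of_ne ht with h | h
    · simp only [hε, hF, if_pos h]
      rw [hneg _ (by rw [gam_re]; linarith)]; ring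
    · simp only [hε, hF, if_neg (not_lt.2 h.le)]
      rw [hpos _ (by rw [gam_re]; linarith)]; ring
  have hFn : ∀ s ∈ Icc (0 : ℝ) 1, ∀ t, 0 < t → t ≠ tm → ‖F s t‖ ≤ (1 + C) * M t := by
    intro s hs t ht htt
    have h1 := hdom s hs t ht htt
    have h0 : 0 ≤ M t := (norm_nonneg _).trans h1
    calc ‖F s t‖ = ‖f (gam x (sg gm gp s) t)‖ * ‖dgam (sg gm gp s) t‖ := norm_mul _ _
      _ ≤ M t * (1 + C) := mul_le_mul h1 (hdgn s hs t ht.le) (norm_nonneg _) h0
      _ = _ := by ring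
  have hS : MeasurableSet (Ioi (0 : ℝ) \ {tm}) := measurableSet_Ioi.diff (measurableSet_singleton _)
  have hae : ∀ᵐ t ∂(volume.restrict (Ioi (0 : ℝ))), 0 < t ∧ t ≠ tm := by
    have h1 : ∀ᵐ t ∂(volume.restrict (Ioi (0 : ℝ))), 0 < t :=
      (ae_restrict_iff' measurableSet_Ioi).2 (Eventually.of_forall fun t ht => ht)
    have h2 : ∀ᵐ t ∂(volume.restrict (Ioi (0 : ℝ))), t ≠ tm :=
      ae_restrict_of_ae (Measure.ae_ne volume tm)
    filter_upwards [h1, h2] with t a b using ⟨a, b⟩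
  have hFc : ∀ s ∈ Icc (0 : ℝ) 1, ContinuousOn (F s) (Ioi (0 : ℝ) \ {tm}) := by
    intro s hs t ht
    have hc := hcont s hs t ht.1 ht.2
    have hcd : ContDiff ℝ 1 (sg gm gp s) := contDiff_sg hm hp s
    have h1 : ContinuousAt (fun t => f (gam x (sg gm gp s) t)) t :=
      ContinuousAt.comp (f := gam x (sg gm gp s)) hc (continuous_gam hcd.continuous).continuousAt
    exact (h1.mul (continuous_dgam hcd).continuousAt).continuousWithinAt
  have hmeas : ∀ s ∈ Icc (0 : ℝ) 1, AEStronglyMeasurable (F s) (volume.restrict (Ioi 0)) := by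
    intro s hs
    have h1 : AEStronglyMeasurable (F s) (volume.restrict (Ioi (0 : ℝ) \ {tm})) :=
      (hFc s hs).aestronglyMeasurable hS
    have h2 : volume.restrict (Ioi (0 : ℝ) \ {tm}) = volume.restrict (Ioi (0 : ℝ)) :=
      Measure.restrict_congr_set (sdiff_null_ae_eq_self (by simp))
    rwa [h2] at h1
  have hεm : Measurable ε := by
    simp only [hε]
    exact Measurable.ite measurableSet_Iio measurable_const measurable_const
  have hint : ∀ s ∈ Icc (0 : ℝ) 1, Integrable (F s) (volume.restrict (Ioi 0)) := by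
    intro s hs
    refine (hM.const_mul (1 + C)).mono' (hmeas s hs) ?_
    filter_upwards [hae] with t ht
    exact hFn s hs t ht.1 ht.2
  have hptw : ∀ t, 0 < t → t ≠ tm → ContinuousAt (fun s => F s t) s₀ := by
    intro t ht htt
    have hc := hcont s₀ hs₀' t ht htt
    have h1 : ContinuousAt (fun s : ℝ => gam x (sg gm gp s) t) s₀ := by
      simp only [gam, sg]; fun_prop
    have h2 : ContinuousAt (fun s : ℝ => dgam (sg gm gp s) t) s₀ := by
      have e : (fun s : ℝ => dgam (sg gm gp s) t) = fun s : ℝ =>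
          1 + ((deriv gm t + s * (deriv gp t - deriv gm t) : ℝ) : ℂ) * I := by
        funext s; rw [dgam, deriv_sg hm hp]; rfl
      rw [e]; fun_prop
    exact (ContinuousAt.comp (f := fun s : ℝ => gam x (sg gm gp s) t) hc h1).mul h2
  -- limits
  have L1 : Tendsto (fun s => ∫ t in Ioi (0 : ℝ), F s t) (𝓝[>] s₀)
      (𝓝 (∫ t in Ioi (0 : ℝ), F s₀ t)) := by
    have hev : ∀ᶠ s in 𝓝[>] s₀, s ∈ Icc (0 : ℝ) 1 := by
      have : Ioo s₀ 1 ∈ 𝓝[>] s₀ := Ioo_mem_nhdsGT hs₀.2
      filter_upwards [this] with s hs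
      exact ⟨(hs₀.1.trans hs.1).le, hs.2.le⟩
    refine tendsto_integral_filter_of_dominated_convergence
      (fun t => (1 + C) * M t) ?_ ?_ (hM.const_mul _) ?_
    · filter_upwards [hev] with s hs using hmeas s hs
    · filter_upwards [hev] with s hs
      filter_upwards [hae] with t ht using hFn s hs t ht.1 ht.2
    · filter_upwards [hae] with t ht
      exact (hptw t ht.1 ht.2).tendsto.mono_left nhdsWithin_le_nhds
  have L2 : Tendsto (fun s => ∫ t in Ioi (0 : ℝ), ε t * F s t) (𝓝[<] s₀)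
      (𝓝 (∫ t in Ioi (0 : ℝ), ε t * F s₀ t)) := by
    have hev : ∀ᶠ s in 𝓝[<] s₀, s ∈ Icc (0 : ℝ) 1 := by
      have : Ioo 0 s₀ ∈ 𝓝[<] s₀ := Ioo_mem_nhdsLT hs₀.1
      filter_upwards [this] with s hs
      exact ⟨hs.1.le, (hs.2.trans hs₀.2).le⟩
    refine tendsto_integral_filter_of_dominated_convergence
      (fun t => (1 + C) * M t) ?_ ?_ (hM.const_mul _) ?_
    · filter_upwards [hev] with s hs using hεm.aestronglyMeasurable.mul (hmeas s hs)
    · filter_upwards [hev] with s hs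
      filter_upwards [hae] with t ht
      rw [norm_mul, hεn, one_mul]
      exact hFn s hs t ht.1 ht.2
    · filter_upwards [hae] with t ht
      exact ((hptw t ht.1 ht.2).tendsto.mono_left nhdsWithin_le_nhds).const_mul _
  have E1 : ∫ t in Ioi (0 : ℝ), f (gam x gp t) * dgam gp t = ∫ t in Ioi (0 : ℝ), F s₀ t := by
    refine tendsto_nhds_unique (tendsto_const_nhds.congr' ?_) L1
    have : Ioo s₀ 1 ∈ 𝓝[>] s₀ := Ioo_mem_nhdsGT hs₀.2
    filter_upwards [this] with s hs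
    exact (hI1 s ⟨hs.1, hs.2.le⟩).symm
  have E2 : ∫ t in Ioi (0 : ℝ), f' (gam x gm t) * dgam gm t =
      ∫ t in Ioi (0 : ℝ), ε t * F s₀ t := by
    refine tendsto_nhds_unique (tendsto_const_nhds.congr' ?_) L2
    have : Ioo 0 s₀ ∈ 𝓝[<] s₀ := Ioo_mem_nhdsLT hs₀.1
    filter_upwards [this] with s hs
    rw [← hI2 s ⟨hs.1.le, hs.2⟩]
    refine integral_congr_ae ?_
    filter_upwards [hae] with t ht using hF' s t ht.2
  rw [E1, E2]
  have hint0 := hint s₀ hs₀'
  have hintε : Integrable (fun t => ε t * F s₀ t) (volume.restrict (Ioi 0)) := by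
    refine (hM.const_mul (1 + C)).mono'
      (hεm.aestronglyMeasurable.mul (hmeas s₀ hs₀')) ?_
    filter_upwards [hae] with t ht
    rw [norm_mul, hεn, one_mul]
    exact hFn s₀ hs₀' t ht.1 ht.2
  rw [← integral_add hint0 hintε]
  have e1 : ∀ t, F s₀ t + ε t * F s₀ t = (Ici tm).indicator (fun t => 2 * F s₀ t) t := by
    intro t
    by_cases h : t < tm
    · simp only [hε, if_pos h]
      rw [indicator_of_notMem (by simpa using h)]; ring
    · simp only [hε, if_neg h]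
      rw [indicator_of_mem (by simpa using h)]; ring
  simp only [e1]
  rw [setIntegral_indicator measurableSet_Ici]
  have e2 : Ioi (0 : ℝ) ∩ Ici tm = Ici tm := by
    ext t; simp only [mem_inter_iff, mem_Ioi, mem_Ici]
    constructor
    · exact fun h => h.2
    · exact fun h => ⟨lt_of_lt_of_le htm h, h⟩
  rw [e2, integral_Ici_eq_integral_Ioi, integral_const_mul]

end

end Vale.Agent.P273.H225
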