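import Mathlib

/-! P273 / H225: integrals of holomorphic functions along graphs over a horizontal half line do not
depend on the graph. -/

namespace Vale.Agent.P273.H225

open Complex Set Filter Topology MeasureTheory
open scoped ContDiff Real

noncomputable section

/-- the path `t ↦ x + t + i g(t)` -/
def gam (x : ℂ) (g : ℝ → ℝ) (t : ℝ) : ℂ := x + t + g t * I

/-- its derivative -/
def dgam (g : ℝ → ℝ) (t : ℝ) : ℂ := 1 + (deriv g t : ℝ) * I

/-- the segment between two functions -/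
def sg (g₀ g₁ : ℝ → ℝ) (s t : ℝ) : ℝ := g₀ t + s * (g₁ t - g₀ t)

@[simp] theorem gam_re (x : ℂ) (g : ℝ → ℝ) (t : ℝ) : (gam x g t).re = x.re + t := by
  simp [gam]

@[simp] theorem gam_im (x : ℂ) (g : ℝ → ℝ) (t : ℝ) : (gam x g t).im = x.im + g t := by
  simp [gam]

@[simp] theorem sg_zero (g₀ g₁ : ℝ → ℝ) : sg g₀ g₁ 0 = g₀ := by
  funext t; simp [sg]

@[simp] theorem sg_one (g₀ g₁ : ℝ → ℝ) : sg g₀ g₁ 1 = g₁ := by
  funext t; simp [sg]

theorem hasDerivAt_gam {x : ℂ} {g : ℝ → ℝ} {t : ℝ} (hg : DifferentiableAt ℝ g t) :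
    HasDerivAt (gam x g) (dgam g t) t := by
  have h1 : HasDerivAt (fun t : ℝ => (g t : ℂ)) ((deriv g t : ℝ) : ℂ) t := hg.hasDerivAt.ofReal_comp
  have h2 : HasDerivAt (fun t : ℝ => (t : ℂ)) 1 t := by
    simpa using (hasDerivAt_id t).ofReal_comp
  exact (h2.const_add x).add (h1.mul_const I)

theorem contDiff_sg {g₀ g₁ : ℝ → ℝ} (h₀ : ContDiff ℝ 1 g₀) (h₁ : ContDiff ℝ 1 g₁) (s : ℝ) :
    ContDiff ℝ 1 (sg g₀ g₁ s) := h₀.add (contDiff_const.mul (h₁.sub h₀))

theorem deriv_sg {g₀ g₁ : ℝ → ℝ} (h₀ : ContDiff ℝ 1 g₀) (h₁ : ContDiff ℝ 1 g₁) (s t : ℝ) :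
    deriv (sg g₀ g₁ s) t = sg (deriv g₀) (deriv g₁) s t := by
  have a : HasDerivAt g₀ (deriv g₀ t) t := (h₀.differentiable one_ne_zero t).hasDerivAt
  have b : HasDerivAt g₁ (deriv g₁ t) t := (h₁.differentiable one_ne_zero t).hasDerivAt
  exact (a.add ((b.sub a).const_mul s)).deriv

theorem continuous_gam {x : ℂ} {g : ℝ → ℝ} (hg : Continuous g) : Continuous (gam x g) := by
  unfold gam; fun_prop

theorem continuous_dgam {g : ℝ → ℝ} (hg : ContDiff ℝ 1 g) : Continuous (dgam g) := by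
  have := hg.continuous_deriv le_rfl
  unfold dgam; fun_prop

/-- the majorant -/
def mj (a t : ℝ) : ℝ := (1 + t) ^ (-1 : ℝ) * |t - a| ^ (-(1 / 2) : ℝ)

theorem mj_nonneg {a t : ℝ} (ht : 0 ≤ t) : 0 ≤ mj a t := by
  unfold mj; positivity

theorem measurable_mj (a : ℝ) : Measurable (mj a) := by
  unfold mj; fun_prop

theorem integrable_mj (a : ℝ) : IntegrableOn (mj a) (Ioi 0) := by
  set T : ℝ := max a 0 + 1 + |a| with hT
  have hTm : a + 1 + |a| ≤ T := by
    have := le_max_left a 0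
    linarith
  have hT0 : 1 + |a| ≤ T := by
    have := le_max_right a 0
    linarith
  have ha0 := abs_nonneg a
  have hsplit : Ioi (0 : ℝ) = Ioc 0 T ∪ Ioi T := by
    rw [Ioc_union_Ioi_eq_Ioi (by linarith)]
  rw [hsplit]
  refine IntegrableOn.union ?_ ?_
  · have h1 : IntervalIntegrable (fun t : ℝ => |t - a| ^ (-(1 / 2) : ℝ)) volume 0 T := by
      have h2 : ∀ a b : ℝ, IntervalIntegrable (fun t : ℝ => |t| ^ (-(1 / 2) : ℝ)) volume a b := by
        have hp : ∀ a : ℝ, 0 ≤ a →
            IntervalIntegrable (fun t : ℝ => |t| ^ (-(1 / 2) : ℝ)) volume 0 a := by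
          intro a ha
          have h3 : IntervalIntegrable (fun t : ℝ => t ^ (-(1 / 2) : ℝ)) volume 0 a :=
            intervalIntegral.intervalIntegrable_rpow' (by norm_num)
          refine h3.congr ?_
          rw [uIoc_of_le ha]
          intro t ht
          simp only
          rw [abs_of_pos ht.1]
        have hn : ∀ a : ℝ, 0 ≤ a →
            IntervalIntegrable (fun t : ℝ => |t| ^ (-(1 / 2) : ℝ)) volume 0 (-a) := by
          intro a ha
          have := (hp a ha).comp_sub_left 0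
          simpa using this.symm.symm
        have hz : ∀ a : ℝ, IntervalIntegrable (fun t : ℝ => |t| ^ (-(1 / 2) : ℝ)) volume 0 a := by
          intro a
          rcases le_total 0 a with h | h
          · exact hp a h
          · simpa using hn (-a) (by linarith)
        exact fun a b => (hz a).symm.trans (hz b)
      have := (h2 (0 - a) (T - a)).comp_sub_right a
      simpa using this
    rw [intervalIntegrable_iff_integrableOn_Ioc_of_le (by linarith)] at h1
    refine h1.mono' ((measurable_mj a).aestronglyMeasurable) ?_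
    refine (ae_restrict_iff' measurableSet_Ioc).2 (Eventually.of_forall fun t ht => ?_)
    rw [Real.norm_eq_abs, abs_of_nonneg (mj_nonneg ht.1.le), mj]
    have h4 : (1 + t) ^ (-1 : ℝ) ≤ 1 :=
      Real.rpow_le_one_of_one_le_of_nonpos (by linarith [ht.1]) (by norm_num)
    calc _ ≤ 1 * |t - a| ^ (-(1 / 2) : ℝ) := mul_le_mul_of_nonneg_right h4 (by positivity)
      _ = _ := one_mul _
  · have h1 : IntegrableOn (fun t : ℝ => (1 + |a|) ^ (1 / 2 : ℝ) * t ^ (-(3 / 2) : ℝ)) (Ioi T) :=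
      (integrableOn_Ioi_rpow_of_lt (by norm_num) (by linarith)).const_mul _
    refine h1.mono' ((measurable_mj a).aestronglyMeasurable) ?_
    refine (ae_restrict_iff' measurableSet_Ioi).2 (Eventually.of_forall fun t ht => ?_)
    have ht : T < t := ht
    have ht0 : 0 < t := by linarith
    rw [Real.norm_eq_abs, abs_of_nonneg (mj_nonneg ht0.le), mj]
    have hta : t / (1 + |a|) ≤ |t - a| := by
      rw [div_le_iff₀ (by linarith)]
      have h7 : t - a ≤ |t - a| := le_abs_self _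
      have h8 : a ≤ |a| := le_abs_self _
      nlinarith
    have h5 : |t - a| ^ (-(1 / 2) : ℝ) ≤ (t / (1 + |a|)) ^ (-(1 / 2) : ℝ) :=
      Real.rpow_le_rpow_of_nonpos (by positivity) hta (by norm_num)
    have h6 : (1 + t) ^ (-1 : ℝ) ≤ t ^ (-1 : ℝ) :=
      Real.rpow_le_rpow_of_nonpos ht0 (by linarith) (by norm_num)
    have h9 : t ^ (-1 : ℝ) * (t / (1 + |a|)) ^ (-(1 / 2) : ℝ) =
        (1 + |a|) ^ (1 / 2 : ℝ) * t ^ (-(3 / 2) : ℝ) := by
      rw [Real.div_rpow ht0.le (by linarith), Real.rpow_neg (by linarith : (0 : ℝ) ≤ 1 + |a|),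
        div_inv_eq_mul]
      have : (-(3 / 2) : ℝ) = -1 + -(1 / 2) := by norm_num
      rw [this, Real.rpow_add ht0]; ring
    calc _ ≤ t ^ (-1 : ℝ) * (t / (1 + |a|)) ^ (-(1 / 2) : ℝ) :=
          mul_le_mul h6 h5 (by positivity) (by positivity)
      _ = _ := h9

theorem mj_zero_mul {t : ℝ} (ht : 0 < t) : mj 0 t * t = (1 + t) ^ (-1 : ℝ) * t ^ (1 / 2 : ℝ) := by
  rw [mj, sub_zero, abs_of_pos ht, mul_assoc]
  congr 1
  nth_rewrite 2 [← Real.rpow_one t]
  rw [← Real.rpow_add ht]; norm_num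

/-- The integral does not depend on the graph. The integrand may have a square root singularity at
the starting point. -/
theorem homot {U : Set ℂ} (hU : IsOpen U) {f : ℂ → ℂ} (hf : DifferentiableOn ℂ f U) {x : ℂ}
    {g₀ g₁ : ℝ → ℝ} (h₀ : ContDiff ℝ 1 g₀) (h₁ : ContDiff ℝ 1 g₁) {C K : ℝ}
    (hd : ∀ t, 0 ≤ t → |g₁ t - g₀ t| ≤ C * t) (hd0 : ∀ t, 0 ≤ t → |deriv g₀ t| ≤ C)
    (hd1 : ∀ t, 0 ≤ t → |deriv g₁ t| ≤ C)
    (hmem : ∀ t, 0 < t → ∀ s ∈ Icc (0 : ℝ) 1, gam x (sg g₀ g₁ s) t ∈ U)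
    (hb : ∀ t, 0 < t → ∀ s ∈ Icc (0 : ℝ) 1, ‖f (gam x (sg g₀ g₁ s) t)‖ ≤ K * mj 0 t)
    (hb' : ∀ t, 0 < t → ∀ s ∈ Icc (0 : ℝ) 1,
      ‖deriv f (gam x (sg g₀ g₁ s) t)‖ ≤ K * mj 0 t / t) :
    ∫ t in Ioi (0 : ℝ), f (gam x g₀ t) * dgam g₀ t =
      ∫ t in Ioi (0 : ℝ), f (gam x g₁ t) * dgam g₁ t := by
  set σ : ℝ → ℝ := fun u => Real.sin u ^ 2 with hσ
  have hσ01 : ∀ u, σ u ∈ Icc (0 : ℝ) 1 := fun u => ⟨sq_nonneg _, Real.sin_sq_le_one u⟩
  have hσd : ∀ u, HasDerivAt σ (2 * Real.sin u * Real.cos u) u := by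
    intro u
    have := (Real.hasDerivAt_sin u).fun_pow 2
    simpa [hσ] using this
  have hC : 0 ≤ C := (abs_nonneg _).trans (hd0 0 le_rfl)
  have hmj1 : 0 < mj 0 1 := by unfold mj; norm_num
  have hK : 0 ≤ K := by
    have := (norm_nonneg _).trans (hb 1 one_pos 0 (by simp))
    exact nonneg_of_mul_nonneg_left this hmj1
  have h01 : g₁ 0 - g₀ 0 = 0 := by
    have := hd 0 le_rfl
    rw [mul_zero] at this
    exact abs_nonpos_iff.1 this
  set γ : ℝ → ℝ → ℂ := fun u t => gam x (sg g₀ g₁ (σ u)) t with hγ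
  set F : ℝ → ℝ → ℂ := fun u t => f (γ u t) * dgam (sg g₀ g₁ (σ u)) t with hF
  set δ : ℝ → ℂ := fun t => ((g₁ t - g₀ t : ℝ) : ℂ) * I with hδ
  set δ' : ℝ → ℂ := fun t => ((deriv g₁ t - deriv g₀ t : ℝ) : ℂ) * I with hδ'
  set G : ℝ → ℝ → ℂ := fun u t =>
    deriv f (γ u t) * dgam (sg g₀ g₁ (σ u)) t * δ t + f (γ u t) * δ' t with hG
  set F' : ℝ → ℝ → ℂ := fun u t => ((2 * Real.sin u * Real.cos u : ℝ) : ℂ) * G u t with hF'
  have hγU : ∀ u t, 0 < t → γ u t ∈ U := fun u t ht => hmem t ht _ (hσ01 u)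
  have hdg : ∀ u t, dgam (sg g₀ g₁ (σ u)) t =
      1 + ((deriv g₀ t + σ u * (deriv g₁ t - deriv g₀ t) : ℝ) : ℂ) * I := by
    intro u t
    rw [dgam, deriv_sg h₀ h₁]; rfl
  have hdgn : ∀ u t, 0 ≤ t → ‖dgam (sg g₀ g₁ (σ u)) t‖ ≤ 1 + C := by
    intro u t ht
    rw [hdg]
    refine (norm_add_le _ _).trans ?_
    have h1 : |deriv g₀ t + σ u * (deriv g₁ t - deriv g₀ t)| ≤ C := by
      have a := abs_le.1 (hd0 t ht)
      have b := abs_le.1 (hd1 t ht)
      have c := hσ01 u
      rw [abs_le]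
      constructor <;> nlinarith [c.1, c.2]
    rw [norm_one, norm_mul, norm_I, mul_one, Complex.norm_real, Real.norm_eq_abs]
    linarith
  have hδn : ∀ t, 0 ≤ t → ‖δ t‖ ≤ C * t := by
    intro t ht
    have h1 : ‖δ t‖ = |g₁ t - g₀ t| := by
      simp only [hδ, norm_mul, norm_I, mul_one, Complex.norm_real, Real.norm_eq_abs]
    rw [h1]; exact hd t ht
  have hδn' : ∀ t, 0 ≤ t → ‖δ' t‖ ≤ 2 * C := by
    intro t ht
    have h1 : ‖δ' t‖ = |deriv g₁ t - deriv g₀ t| := by
      simp only [hδ', norm_mul, norm_I, mul_one, Complex.norm_real, Real.norm_eq_abs]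
    rw [h1]
    refine (abs_sub _ _).trans ?_
    linarith [hd0 t ht, hd1 t ht]
  have hfd : DifferentiableOn ℂ (deriv f) U := hf.deriv hU
  have cγ : ∀ u, Continuous (γ u) := fun u => continuous_gam (contDiff_sg h₀ h₁ _).continuous
  have mγ : ∀ u, MapsTo (γ u) (Ioi 0) U := fun u t ht => hγU u t ht
  have cf : ∀ u, ContinuousOn (fun t => f (γ u t)) (Ioi 0) := fun u =>
    hf.continuousOn.comp (cγ u).continuousOn (mγ u)
  have cf' : ∀ u, ContinuousOn (fun t => deriv f (γ u t)) (Ioi 0) := fun u =>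
    hfd.continuousOn.comp (cγ u).continuousOn (mγ u)
  have cd : ∀ u, Continuous (dgam (sg g₀ g₁ (σ u))) := fun u => continuous_dgam (contDiff_sg h₀ h₁ _)
  have cδ : Continuous δ := by
    have := h₀.continuous; have := h₁.continuous
    simp only [hδ]; fun_prop
  have cδ' : Continuous δ' := by
    have := h₀.continuous_deriv le_rfl; have := h₁.continuous_deriv le_rfl
    simp only [hδ']; fun_prop
  have hFn : ∀ u t, 0 < t → ‖F u t‖ ≤ (K * (1 + C)) * mj 0 t := by
    intro u t ht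
    rw [hF]; simp only
    rw [norm_mul]
    have hm := mj_nonneg (a := 0) ht.le
    calc _ ≤ K * mj 0 t * (1 + C) :=
          mul_le_mul (hb t ht _ (hσ01 u)) (hdgn u t ht.le) (norm_nonneg _) (by positivity)
      _ = _ := by ring
  have hGn : ∀ u t, 0 < t → ‖G u t‖ ≤ (K * (1 + C) * C + K * (2 * C)) * mj 0 t := by
    intro u t ht
    have hm := mj_nonneg (a := 0) ht.le
    have h0 : ‖G u t‖ ≤ ‖deriv f (γ u t)‖ * ‖dgam (sg g₀ g₁ (σ u)) t‖ * ‖δ t‖ +
        ‖f (γ u t)‖ * ‖δ' t‖ := by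
      refine (norm_add_le _ _).trans (le_of_eq ?_)
      rw [norm_mul (deriv f (γ u t) * dgam (sg g₀ g₁ (σ u)) t) (δ t),
        norm_mul (deriv f (γ u t)), norm_mul (f (γ u t)) (δ' t)]
    refine h0.trans ?_
    have h1 : ‖deriv f (γ u t)‖ * ‖dgam (sg g₀ g₁ (σ u)) t‖ * ‖δ t‖ ≤
        K * mj 0 t / t * (1 + C) * (C * t) :=
      mul_le_mul (mul_le_mul (hb' t ht _ (hσ01 u)) (hdgn u t ht.le) (norm_nonneg _)
        (by positivity)) (hδn t ht.le) (norm_nonneg _) (by positivity)
    have h2 : ‖f (γ u t)‖ * ‖δ' t‖ ≤ K * mj 0 t * (2 * C) :=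
      mul_le_mul (hb t ht _ (hσ01 u)) (hδn' t ht.le) (norm_nonneg _) (by positivity)
    calc _ ≤ K * mj 0 t / t * (1 + C) * (C * t) + K * mj 0 t * (2 * C) := add_le_add h1 h2
      _ = _ := by field_simp
  -- the derivative in the parameter
  have hder : ∀ u t, 0 < t → HasDerivAt (fun u => F u t) (F' u t) u := by
    intro u t ht
    have h1 : HasDerivAt (fun u => γ u t) (((2 * Real.sin u * Real.cos u : ℝ) : ℂ) * δ t) u := by
      have a : HasDerivAt (fun u => ((σ u : ℝ) : ℂ)) ((2 * Real.sin u * Real.cos u : ℝ) : ℂ) u :=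
        (hσd u).ofReal_comp
      have b := ((a.mul_const (((g₁ t - g₀ t : ℝ) : ℂ))).const_add ((g₀ t : ℝ) : ℂ)).mul_const I
      have c := b.const_add (x + t)
      have e : (fun u => γ u t) = fun u => x + t +
          (((g₀ t : ℝ) : ℂ) + ((σ u : ℝ) : ℂ) * ((g₁ t - g₀ t : ℝ) : ℂ)) * I := by
        funext u
        simp only [hγ, gam, sg]
        push_cast; ring
      rw [e]
      refine c.congr_deriv ?_
      change ((2 * Real.sin u * Real.cos u : ℝ) : ℂ) * ((g₁ t - g₀ t : ℝ) : ℂ) * I =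
        ((2 * Real.sin u * Real.cos u : ℝ) : ℂ) * (((g₁ t - g₀ t : ℝ) : ℂ) * I)
      ring
    have h2 : HasDerivAt (fun u => f (γ u t))
        (deriv f (γ u t) * (((2 * Real.sin u * Real.cos u : ℝ) : ℂ) * δ t)) u :=
      ((hf.differentiableAt (hU.mem_nhds (hγU u t ht))).hasDerivAt).comp u h1
    have h3 : HasDerivAt (fun u => dgam (sg g₀ g₁ (σ u)) t)
        (((2 * Real.sin u * Real.cos u : ℝ) : ℂ) * δ' t) u := by
      have a : HasDerivAt (fun u => ((σ u : ℝ) : ℂ)) ((2 * Real.sin u * Real.cos u : ℝ) : ℂ) u :=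
        (hσd u).ofReal_comp
      have b := ((a.mul_const (((deriv g₁ t - deriv g₀ t : ℝ) : ℂ))).const_add
        ((deriv g₀ t : ℝ) : ℂ)).mul_const I
      have c := b.const_add 1
      have e : (fun u => dgam (sg g₀ g₁ (σ u)) t) = fun u => 1 +
          (((deriv g₀ t : ℝ) : ℂ) + ((σ u : ℝ) : ℂ) * ((deriv g₁ t - deriv g₀ t : ℝ) : ℂ)) * I := by
        funext u
        rw [hdg]
        push_cast; ring
      rw [e]
      refine c.congr_deriv ?_
      change ((2 * Real.sin u * Real.cos u : ℝ) : ℂ) * ((deriv g₁ t - deriv g₀ t : ℝ) : ℂ) * I =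
        ((2 * Real.sin u * Real.cos u : ℝ) : ℂ) * (((deriv g₁ t - deriv g₀ t : ℝ) : ℂ) * I)
      ring
    refine (h2.mul h3).congr_deriv ?_
    change deriv f (γ u t) * (((2 * Real.sin u * Real.cos u : ℝ) : ℂ) * δ t) *
        dgam (sg g₀ g₁ (σ u)) t +
        f (γ u t) * (((2 * Real.sin u * Real.cos u : ℝ) : ℂ) * δ' t) =
      ((2 * Real.sin u * Real.cos u : ℝ) : ℂ) *
        (deriv f (γ u t) * dgam (sg g₀ g₁ (σ u)) t * δ t + f (γ u t) * δ' t)
    ring
  -- the derivative of the integral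
  have hmain : ∀ u, HasDerivAt (fun u => ∫ t in Ioi (0 : ℝ), F u t) 0 u := by
    intro u
    have hmeas : ∀ u, AEStronglyMeasurable (F u) (volume.restrict (Ioi 0)) := fun u =>
      ((cf u).mul (cd u).continuousOn).aestronglyMeasurable measurableSet_Ioi
    have hint : ∀ u, Integrable (F u) (volume.restrict (Ioi 0)) := fun u =>
      ((integrable_mj 0).const_mul (K * (1 + C))).mono' (hmeas u)
        ((ae_restrict_iff' measurableSet_Ioi).2 (Eventually.of_forall fun t ht => hFn u t ht))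
    have hGc : ∀ u, ContinuousOn (G u) (Ioi 0) := fun u =>
      (((cf' u).mul (cd u).continuousOn).mul cδ.continuousOn).add ((cf u).mul cδ'.continuousOn)
    have hF'm : AEStronglyMeasurable (F' u) (volume.restrict (Ioi 0)) :=
      (continuousOn_const.mul (hGc u)).aestronglyMeasurable measurableSet_Ioi
    have key := hasDerivAt_integral_of_dominated_loc_of_deriv_le
      (μ := volume.restrict (Ioi (0 : ℝ))) (F := F) (F' := F') (x₀ := u) (s := univ)
      (bound := fun t => (2 * (K * (1 + C) * C + K * (2 * C))) * mj 0 t)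
      univ_mem (Eventually.of_forall hmeas) (hint u) hF'm
      ((ae_restrict_iff' measurableSet_Ioi).2 (Eventually.of_forall fun t ht v _ => by
        have h1 : ‖((2 * Real.sin v * Real.cos v : ℝ) : ℂ)‖ ≤ 2 := by
          rw [Complex.norm_real, Real.norm_eq_abs, ← Real.sin_two_mul]
          exact (Real.abs_sin_le_one _).trans one_le_two
        have h2 : ‖((2 * Real.sin v * Real.cos v : ℝ) : ℂ) * G v t‖ ≤
            2 * ((K * (1 + C) * C + K * (2 * C)) * mj 0 t) := by
          rw [norm_mul]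
          exact mul_le_mul h1 (hGn v t ht) (norm_nonneg _) (by norm_num)
        change ‖((2 * Real.sin v * Real.cos v : ℝ) : ℂ) * G v t‖ ≤ _
        refine h2.trans (le_of_eq ?_)
        ring))
      ((integrable_mj 0).const_mul _)
      ((ae_restrict_iff' measurableSet_Ioi).2 (Eventually.of_forall fun t ht v _ =>
        hder v t ht))
    have hzero : ∫ t in Ioi (0 : ℝ), F' u t = 0 := by
      have hGint : IntegrableOn (G u) (Ioi 0) :=
        ((integrable_mj 0).const_mul (K * (1 + C) * C + K * (2 * C))).mono'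
          ((hGc u).aestronglyMeasurable measurableSet_Ioi)
          ((ae_restrict_iff' measurableSet_Ioi).2 (Eventually.of_forall fun t ht => hGn u t ht))
      have hprim : ∀ t, 0 < t → HasDerivAt (fun t => f (γ u t) * δ t) (G u t) t := by
        intro t ht
        have a : HasDerivAt (fun t => γ u t) (dgam (sg g₀ g₁ (σ u)) t) t :=
          hasDerivAt_gam ((contDiff_sg h₀ h₁ _).differentiable one_ne_zero t)
        have b : HasDerivAt (fun t => f (γ u t)) (deriv f (γ u t) * dgam (sg g₀ g₁ (σ u)) t) t :=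
          ((hf.differentiableAt (hU.mem_nhds (hγU u t ht))).hasDerivAt).comp t a
        have c : HasDerivAt δ (δ' t) t := by
          have a1 : HasDerivAt g₁ (deriv g₁ t) t := (h₁.differentiable one_ne_zero t).hasDerivAt
          have a0 : HasDerivAt g₀ (deriv g₀ t) t := (h₀.differentiable one_ne_zero t).hasDerivAt
          exact ((a1.sub a0).ofReal_comp).mul_const I
        exact b.mul c
      have hbd : ∀ t, 0 < t → ‖f (γ u t) * δ t‖ ≤
          K * C * ((1 + t) ^ (-1 : ℝ) * t ^ (1 / 2 : ℝ)) := by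
        intro t ht
        have hm := mj_nonneg (a := 0) ht.le
        rw [← mj_zero_mul ht, norm_mul]
        calc _ ≤ K * mj 0 t * (C * t) :=
              mul_le_mul (hb t ht _ (hσ01 u)) (hδn t ht.le) (norm_nonneg _) (by positivity)
          _ = _ := by ring
      have hlim : Tendsto (fun t => f (γ u t) * δ t) atTop (𝓝 0) := by
        rw [tendsto_zero_iff_norm_tendsto_zero]
        have h3 : Tendsto (fun t : ℝ => K * C * t ^ (-(1 / 2) : ℝ)) atTop (𝓝 0) := by
          simpa using (tendsto_rpow_neg_atTop (by norm_num : (0 : ℝ) < 1 / 2)).const_mul (K * C)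
        refine squeeze_zero' (Eventually.of_forall fun t => norm_nonneg _) ?_ h3
        filter_upwards [eventually_gt_atTop (0 : ℝ)] with t ht
        refine (hbd t ht).trans ?_
        refine mul_le_mul_of_nonneg_left ?_ (by positivity)
        have h6 : (1 + t) ^ (-1 : ℝ) ≤ t ^ (-1 : ℝ) :=
          Real.rpow_le_rpow_of_nonpos ht (by linarith) (by norm_num)
        calc _ ≤ t ^ (-1 : ℝ) * t ^ (1 / 2 : ℝ) := mul_le_mul_of_nonneg_right h6 (by positivity)
          _ = _ := by rw [← Real.rpow_add ht]; norm_num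
      have h0 : δ 0 = 0 := by simp only [hδ, h01]; simp
      have hc0 : ContinuousWithinAt (fun t => f (γ u t) * δ t) (Ici 0) 0 := by
        have h3 : Tendsto (fun t : ℝ => K * C * t ^ (1 / 2 : ℝ)) (𝓝[Ici 0] 0) (𝓝 0) := by
          have h4 : ContinuousAt (fun t : ℝ => K * C * t ^ (1 / 2 : ℝ)) 0 := by
            refine continuousAt_const.mul ?_
            exact Real.continuousAt_rpow_const _ _ (Or.inr (by norm_num))
          have h5 := h4.tendsto.mono_left (nhdsWithin_le_nhds (s := Ici (0 : ℝ)))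
          simpa using h5
        rw [ContinuousWithinAt, h0, mul_zero, tendsto_zero_iff_norm_tendsto_zero]
        refine squeeze_zero' (Eventually.of_forall fun t => norm_nonneg _) ?_ h3
        filter_upwards [self_mem_nhdsWithin] with t ht
        rcases (mem_Ici.1 ht).eq_or_lt with h | h
        · rw [← h, h0]; simp
        refine (hbd t h).trans ?_
        refine mul_le_mul_of_nonneg_left ?_ (by positivity)
        have h6 : (1 + t) ^ (-1 : ℝ) ≤ 1 :=
          Real.rpow_le_one_of_one_le_of_nonpos (by linarith) (by norm_num)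
        calc _ ≤ 1 * t ^ (1 / 2 : ℝ) := mul_le_mul_of_nonneg_right h6 (by positivity)
          _ = _ := one_mul _
      have hI := integral_Ioi_of_hasDerivAt_of_tendsto hc0
        (fun t ht => hprim t ht) hGint hlim
      rw [h0, mul_zero, sub_zero] at hI
      simp only [hF']
      rw [integral_const_mul, hI, mul_zero]
    have := key.2
    rwa [hzero] at this
  have hconst := is_const_of_deriv_eq_zero (fun u => (hmain u).differentiableAt)
    (fun u => (hmain u).deriv) 0 (π / 2)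
  have e0 : σ 0 = 0 := by simp [hσ]
  have e1 : σ (π / 2) = 1 := by simp [hσ]
  simp only [hF, hγ, e0, e1, sg_zero, sg_one] at hconst
  exact hconst

end

end Vale.Agent.P273.H225
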