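import Vale.Agent.P273.H225.Est
import Vale.Agent.P273.H595.Nat

/-! P273 / H225: the primitives do not depend on the admissible path. -/

namespace Vale.Agent.P273.H225

open Complex Set Filter Topology MeasureTheory
open Vale.Agent.P273.H857 (C6 br Sb Dm IsPath Adm igd PG P)
open scoped ContDiff Real

noncomputable section

/-- one label such that all the other roots are different from the starting point -/
theorem exists_start {b : C6} {x : ℂ} (hb : H595.SR b x) (m : Fin 6) (hm : b m ≠ x) :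
    ∃ j, j ≠ m ∧ ∀ l, l ≠ j → b l ≠ x := by
  by_cases h : ∃ l, b l = x
  · obtain ⟨j, hj⟩ := h
    refine ⟨j, ?_, fun l hl h2 => hl (hb l j h2 hj)⟩
    rintro rfl
    exact hm hj
  · have h : ∀ l, b l ≠ x := fun l hl => h ⟨l, hl⟩
    rcases eq_or_ne m 0 with rfl | h0
    · exact ⟨1, by decide, fun l _ => h l⟩
    · exact ⟨0, h0.symm, fun l _ => h l⟩

theorem exists_start' {b : C6} {x : ℂ} (hb : H595.SR b x) : ∃ j, ∀ l, l ≠ j → b l ≠ x := by
  by_cases h : ∃ l, b l = x
  · obtain ⟨j, hj⟩ := h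
    exact ⟨j, fun l hl h2 => hl (hb l j h2 hj)⟩
  · exact ⟨0, fun l _ hl => h ⟨l, hl⟩⟩

theorem adm_sg {B : Finset (Fin 6)} {b : C6} {x : ℂ} {g₀ g₁ : ℝ → ℝ} (h₀ : Adm B b x g₀)
    (h₁ : Adm B b x g₁) {s : ℝ} (hs : s ∈ Icc (0 : ℝ) 1) : Adm B b x (sg g₀ g₁ s) := by
  rw [sg_eq]
  exact h₀.convex h₁ hs.1 hs.2

/-- uniform lower bounds on the segment between two admissible paths -/
theorem exists_kappa {B : Finset (Fin 6)} {b : C6} {x : ℂ} {g₀ g₁ : ℝ → ℝ} (h₀ : Adm B b x g₀)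
    (h₁ : Adm B b x g₁) {j : Fin 6} (hj : ∀ l, l ≠ j → b l ≠ x) :
    ∃ κ, 0 < κ ∧ κ ≤ 1 ∧ ∀ t, 0 < t → ∀ s ∈ Icc (0 : ℝ) 1,
      (∀ l, l ≠ j → κ * (1 + t) ≤ ‖gam x (sg g₀ g₁ s) t - b l‖) ∧
        κ * t ≤ ‖gam x (sg g₀ g₁ s) t - b j‖ := by
  have key : ∀ l, ∃ κ, 0 < κ ∧ ∀ t, 0 < t → ∀ s ∈ Icc (0 : ℝ) 1,
      (l ≠ j → κ * (1 + t) ≤ ‖gam x (sg g₀ g₁ s) t - b l‖) ∧
        κ * t ≤ ‖gam x (sg g₀ g₁ s) t - b l‖ := by
    intro l
    by_cases hl : b l = x
    · refine ⟨1, one_pos, fun t ht s hs => ⟨fun h => absurd hl (hj l h), ?_⟩⟩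
      have := re_bound x (b l) (sg g₀ g₁ s) t
      rw [hl, sub_self, sub_zero, abs_of_pos ht] at this
      rw [hl, one_mul]
      exact this
    · obtain ⟨κ, h1, h2⟩ := lowb (x := x) (c := b l) h₀.1.smooth.continuous h₁.1.smooth.continuous
        (fun t ht s hs h => by
          have h3 := (adm_sg h₀ h₁ hs).mem ht (l := l) (Or.inl hl)
          rw [gam_eq, h, sub_self] at h3
          exact H857.Sb_ne_zero h3 rfl)
      refine ⟨κ, h1, fun t ht s hs => ⟨fun _ => h2 t ht.le s hs, ?_⟩⟩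
      refine le_trans ?_ (h2 t ht.le s hs)
      exact mul_le_mul_of_nonneg_left (by linarith) h1.le
  choose κ hκ using key
  have hne : (Finset.univ.image κ ∪ {1}).Nonempty := ⟨1, by simp⟩
  refine ⟨(Finset.univ.image κ ∪ {1}).min' hne, ?_, ?_, fun t ht s hs => ⟨fun l hl => ?_, ?_⟩⟩
  · rw [Finset.lt_min'_iff]
    intro y hy
    rcases Finset.mem_union.1 hy with h | h
    · obtain ⟨l, -, rfl⟩ := Finset.mem_image.1 h
      exact (hκ l).1
    · rw [Finset.mem_singleton.1 h]; exact one_pos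
  · exact Finset.min'_le _ _ (by simp)
  · refine le_trans ?_ (((hκ l).2 t ht s hs).1 hl)
    refine mul_le_mul_of_nonneg_right (Finset.min'_le _ _ ?_) (by linarith)
    exact Finset.mem_union_left _ (Finset.mem_image_of_mem _ (Finset.mem_univ l))
  · refine le_trans ?_ ((hκ j).2 t ht s hs).2
    refine mul_le_mul_of_nonneg_right (Finset.min'_le _ _ ?_) ht.le
    exact Finset.mem_union_left _ (Finset.mem_image_of_mem _ (Finset.mem_univ j))

theorem mj_eq {t : ℝ} (ht : 0 < t) : mj 0 t = (1 + t)⁻¹ * (Real.sqrt t)⁻¹ := by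
  rw [mj, sub_zero, abs_of_pos ht, Real.rpow_neg_one, Real.rpow_neg ht.le, Real.sqrt_eq_rpow]

/-- the function `z ^ k / sq B b z` -/
def qf (k : ℕ) (B : Finset (Fin 6)) (b : C6) (z : ℂ) : ℂ := z ^ k / H857.sq B b z

theorem igd_eq (k : ℕ) (B : Finset (Fin 6)) (b : C6) (x : ℂ) (g : ℝ → ℝ) (t : ℝ) :
    igd k B b x g t = qf k B b (gam x g t) * dgam g t := by
  rw [H857.igd, gam_eq, qf, dgam]

theorem hasDerivAt_br {B : Finset (Fin 6)} {l : Fin 6} {z : ℂ} (h : z ∈ Sb B l) :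
    HasDerivAt (br B l) (1 / (2 * br B l z)) z := by
  by_cases hl : l ∈ B
  · have e : br B l = H857.ru := by funext w; simp [H857.br, hl]
    rw [H857.Sb, if_pos hl] at h
    rw [e]; exact H857.hasDerivAt_ru h
  · have e : br B l = H857.rt := by funext w; simp [H857.br, hl]
    rw [H857.Sb, if_neg hl] at h
    rw [e]; exact H857.hasDerivAt_rt h

theorem hasDerivAt_sq {B : Finset (Fin 6)} {b : C6} {z : ℂ} (h : z ∈ Dm B b) :
    HasDerivAt (H857.sq B b) (H857.sq B b z * ∑ l, 1 / (2 * (z - b l))) z := by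
  have h1 : ∀ l ∈ (Finset.univ : Finset (Fin 6)), HasDerivAt (fun z => br B l (z - b l))
      (1 / (2 * br B l (z - b l))) z := fun l _ => by
    have h2 : HasDerivAt (fun z : ℂ => z - b l) 1 z := (hasDerivAt_id z).sub_const _
    exact ((hasDerivAt_br (h l)).comp z h2).congr_deriv (mul_one _)
  have h3 := HasDerivAt.fun_finsetProd h1
  refine h3.congr_deriv ?_
  rw [Finset.mul_sum]
  refine Finset.sum_congr rfl fun l _ => ?_
  have hne : z - b l ≠ 0 := H857.Sb_ne_zero (h l)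
  have hbr : br B l (z - b l) ≠ 0 := H857.br_ne_zero hne
  rw [H857.sq, ← Finset.mul_prod_erase _ _ (Finset.mem_univ l), smul_eq_mul]
  have hs := H857.br_mul_self B l (z - b l)
  generalize br B l (z - b l) = w at hs hbr ⊢
  rw [← hs]
  field_simp

theorem hasDerivAt_qf {k : ℕ} {B : Finset (Fin 6)} {b : C6} {z : ℂ} (h : z ∈ Dm B b) :
    HasDerivAt (qf k B b)
      ((k * z ^ (k - 1) - z ^ k * ∑ l, 1 / (2 * (z - b l))) / H857.sq B b z) z := by
  have hne : H857.sq B b z ≠ 0 := H857.sq_ne_zero fun l e => by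
    have := h l
    rw [e, sub_self] at this
    exact H857.Sb_ne_zero this rfl
  have h1 := (hasDerivAt_pow k z).div (hasDerivAt_sq h) hne
  refine h1.congr_deriv ?_
  field_simp

theorem isOpen_Dm' (B : Finset (Fin 6)) (b : C6) : IsOpen (Dm B b) := H857.isOpen_Dm B b

theorem differentiableOn_qf (k : ℕ) (B : Finset (Fin 6)) (b : C6) :
    DifferentiableOn ℂ (qf k B b) (Dm B b) := fun _ hz =>
  (hasDerivAt_qf hz).differentiableAt.differentiableWithinAt

theorem pow_le {k : ℕ} (hk : k ≤ 1) {C t : ℝ} (hC : 1 ≤ C) (ht : 0 ≤ t) {z : ℂ}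
    (hz : ‖z‖ ≤ C * (1 + t)) : ‖z ^ k‖ ≤ C * (1 + t) := by
  interval_cases k
  · rw [pow_zero, norm_one]; nlinarith
  · rw [pow_one]; exact hz

/-- bounds for the integrand along the segment between two admissible paths -/
theorem bounds {k : ℕ} (hk : k ≤ 1) {B : Finset (Fin 6)} {b : C6} {x : ℂ} (hs : H595.SR b x)
    {g₀ g₁ : ℝ → ℝ} (h₀ : Adm B b x g₀) (h₁ : Adm B b x g₁) :
    ∃ K, ∀ t, 0 < t → ∀ s ∈ Icc (0 : ℝ) 1,
      ‖qf k B b (gam x (sg g₀ g₁ s) t)‖ ≤ K * mj 0 t ∧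
        ‖deriv (qf k B b) (gam x (sg g₀ g₁ s) t)‖ ≤ K * mj 0 t / t := by
  obtain ⟨j, hj⟩ := exists_start' hs
  obtain ⟨κ, k0, k1, hκ⟩ := exists_kappa h₀ h₁ hj
  obtain ⟨C, C1, hC⟩ := upb x h₀.1 h₁.1
  refine ⟨(1 + 3 * C / κ) * C / κ ^ 3, fun t ht s hs' => ?_⟩
  set z := gam x (sg g₀ g₁ s) t with hz
  obtain ⟨a1, a2⟩ := hκ t ht s hs'
  have hzC := hC t ht.le s hs'
  have hzD : z ∈ Dm B b := by
    have := (adm_sg h₀ h₁ hs').mem_Dm ht
    rwa [gam_eq] at this
  have hlow : κ ^ 3 * (1 + t) ^ 2 * Real.sqrt t ≤ ‖H857.sq B b z‖ := by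
    rw [norm_sq]
    exact prod_lower1 j k0 ht a1 a2
  have hst : 0 < Real.sqrt t := Real.sqrt_pos.2 ht
  have hlow0 : 0 < κ ^ 3 * (1 + t) ^ 2 * Real.sqrt t := by positivity
  have hinv : ‖H857.sq B b z‖⁻¹ ≤ (κ ^ 3 * (1 + t) ^ 2 * Real.sqrt t)⁻¹ :=
    inv_anti₀ hlow0 hlow
  have hpk := pow_le hk C1 ht.le hzC
  have hmj := mj_eq ht
  have hA : ‖qf k B b z‖ ≤ C / κ ^ 3 * mj 0 t := by
    rw [qf, norm_div, div_eq_mul_inv]
    calc _ ≤ C * (1 + t) * (κ ^ 3 * (1 + t) ^ 2 * Real.sqrt t)⁻¹ :=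
          mul_le_mul hpk hinv (by positivity) (by positivity)
      _ = _ := by
        rw [hmj]; field_simp
  have hm := mj_nonneg (a := 0) ht.le
  have h3 : 0 ≤ 3 * C / κ := by positivity
  constructor
  · refine hA.trans ?_
    refine mul_le_mul_of_nonneg_right ?_ hm
    rw [div_le_div_iff_of_pos_right (by positivity)]
    nlinarith
  · rw [(hasDerivAt_qf hzD).deriv, norm_div, div_eq_mul_inv]
    have hsum : ‖∑ l, 1 / (2 * (z - b l))‖ ≤ 3 / (κ * t) := by
      refine (norm_sum_le _ _).trans ?_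
      have h5 : ∀ l ∈ (Finset.univ : Finset (Fin 6)), ‖1 / (2 * (z - b l))‖ ≤ 1 / (2 * (κ * t)) := by
        intro l _
        have h6 : κ * t ≤ ‖z - b l‖ := by
          rcases eq_or_ne l j with rfl | h7
          · exact a2
          · exact le_trans (mul_le_mul_of_nonneg_left (by linarith) k0.le) (a1 l h7)
        rw [norm_div, norm_one, norm_mul]
        have h8 : ‖(2 : ℂ)‖ = 2 := by simp
        rw [h8]
        exact one_div_le_one_div_of_le (by positivity) (by linarith)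
      refine (Finset.sum_le_card_nsmul _ _ _ h5).trans (le_of_eq ?_)
      rw [Finset.card_univ, Fintype.card_fin, nsmul_eq_mul]
      push_cast; field_simp; norm_num
    have h9 : ‖(k : ℂ) * z ^ (k - 1) - z ^ k * ∑ l, 1 / (2 * (z - b l))‖ ≤
        (1 + 3 * C / κ) * ((1 + t) / t) := by
      refine (norm_sub_le _ _).trans ?_
      have h10 : ‖(k : ℂ) * z ^ (k - 1)‖ ≤ 1 := by
        interval_cases k
        · simp
        · simp
      have h11 : ‖z ^ k * ∑ l, 1 / (2 * (z - b l))‖ ≤ C * (1 + t) * (3 / (κ * t)) := by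
        rw [norm_mul]
        exact mul_le_mul hpk hsum (norm_nonneg _) (by positivity)
      have h12 : 1 ≤ (1 + t) / t := by
        rw [le_div_iff₀ ht]; linarith
      have h13 : C * (1 + t) * (3 / (κ * t)) = 3 * C / κ * ((1 + t) / t) := by
        field_simp
      rw [h13] at h11
      nlinarith
    calc _ ≤ (1 + 3 * C / κ) * ((1 + t) / t) * (κ ^ 3 * (1 + t) ^ 2 * Real.sqrt t)⁻¹ :=
          mul_le_mul h9 hinv (by positivity) (by positivity)
      _ ≤ (1 + 3 * C / κ) * ((1 + t) / t) * (κ ^ 3 * (1 + t) ^ 2 * Real.sqrt t)⁻¹ * C := by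
        refine le_mul_of_one_le_right (by positivity) C1
      _ = _ := by
        rw [hmj]; field_simp

/-- **row GP-INV on the natural set** -/
theorem stmINVn : H595.StmINVn := by
  intro k B b x hk hs
  constructor
  · intro g hg
    obtain ⟨K, hK⟩ := bounds hk hs hg hg
    obtain ⟨L, -, hL, -⟩ := IsPath.lin hg.1
    have hcd := IsPath.cd hg.1
    have e : igd k B b x g = fun t => qf k B b (gam x g t) * dgam g t := by
      funext t; exact igd_eq k B b x g t
    rw [e]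
    have hc : ContinuousOn (fun t => qf k B b (gam x g t) * dgam g t) (Ioi 0) := by
      refine ContinuousOn.mul ?_ (continuous_dgam hcd).continuousOn
      refine (differentiableOn_qf k B b).continuousOn.comp
        (continuous_gam hcd.continuous).continuousOn fun t ht => ?_
      have := hg.mem_Dm ht
      rwa [gam_eq] at this
    refine ((integrable_mj 0).const_mul (K * (1 + L))).mono'
      (hc.aestronglyMeasurable measurableSet_Ioi) ?_
    refine (ae_restrict_iff' measurableSet_Ioi).2 (Eventually.of_forall fun t ht => ?_)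
    have h1 := (hK t ht 0 (by simp)).1
    rw [sg_zero] at h1
    have h2 : ‖dgam g t‖ ≤ 1 + L := by
      rw [dgam]
      refine (norm_add_le _ _).trans ?_
      rw [norm_one, norm_mul, norm_I, mul_one, Complex.norm_real, Real.norm_eq_abs]
      linarith [hL t]
    rw [norm_mul]
    calc _ ≤ K * mj 0 t * (1 + L) :=
          mul_le_mul h1 h2 (norm_nonneg _) ((norm_nonneg _).trans h1)
      _ = _ := by ring
  · intro g₀ g₁ h₀ h₁
    obtain ⟨K, hK⟩ := bounds hk hs h₀ h₁
    obtain ⟨L₀, p0, hL₀, hl₀⟩ := IsPath.lin h₀.1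
    obtain ⟨L₁, p1, hL₁, hl₁⟩ := IsPath.lin h₁.1
    have key := homot (H857.isOpen_Dm B b) (differentiableOn_qf k B b) (x := x)
      (IsPath.cd h₀.1) (IsPath.cd h₁.1) (C := L₀ + L₁) (K := K)
      (fun t ht => by
        refine (abs_sub _ _).trans ?_
        have := hl₀ t ht
        have := hl₁ t ht
        linarith)
      (fun t _ => by linarith [hL₀ t]) (fun t _ => by linarith [hL₁ t])
      (fun t ht s hs' => by
        have := (adm_sg h₀ h₁ hs').mem_Dm ht
        rwa [gam_eq] at this)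
      (fun t ht s hs' => (hK t ht s hs').1) (fun t ht s hs' => (hK t ht s hs').2)
    rw [H857.PG, H857.PG]
    simp only [igd_eq]
    rw [key]

theorem stmINV : H857.StmINV := stmINVn.inj

end

end Vale.Agent.P273.H225
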