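import Vale.Agent.P273.H225.Nk
import Vale.Agent.P273.H174.Cut3

/-!
# P273, row ASY1 (helper225): the neck bounds of the one mark gauge, final form

`cutN : CutN` from 174's estimates of the cut-off functions, and `neckO_of`.
-/

noncomputable section

namespace Vale.Agent.P273.H225

open Set Filter H681 H95 H973 H730 Finset
open scoped Topology ContDiff
open H214 (Bs chiW hh Cf ff EWc EWv etaP FlatFam FlatOn oneOf)
open H604 (chiI)

theorem norm_le_of_yl {c : ℝ} {d : ℂ} (hc : 0 < c) (hd : d ≠ 0) (hy : 0 < yl c d) :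
    ‖d‖ ≤ 2 * c * (yl c d)⁻¹ := by
  have hd' := norm_pos_iff.2 hd
  have h1 : ‖d‖ = c * Real.exp (-(yl c d / 2)) := by
    rw [yl, Real.exp_neg, show 2 * Real.log (c / ‖d‖) / 2 = Real.log (c / ‖d‖) by ring,
      Real.exp_log (by positivity)]
    field_simp
  have h2 : Real.exp (-(yl c d / 2)) ≤ 2 * (yl c d)⁻¹ := by
    rw [Real.exp_neg, show 2 * (yl c d)⁻¹ = (yl c d / 2)⁻¹ by rw [inv_div, div_eq_mul_inv]]
    exact inv_anti₀ (by positivity) (by linarith [Real.add_one_le_exp (yl c d / 2)])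
  calc ‖d‖ = c * Real.exp (-(yl c d / 2)) := h1
    _ ≤ c * (2 * (yl c d)⁻¹) := mul_le_mul_of_nonneg_left h2 hc.le
    _ = _ := by ring

theorem toPair {b : Bs} {j j' : Fin 6} {e s : ℂ} {r : ℝ} (P : H174.Pair b j j' e s r) :
    EWn.Pair b j j' e s r where
  inj := P.hb
  ne := P.ne
  bj := P.hj
  bj' := P.hj'
  dl0 := P.r_pos
  small := by
    have := P.small
    have := norm_nonneg s
    linarith
  far := P.far

/-- **The cut-off functions in the neck.** -/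
theorem cutN : CutN := by
  intro k q₀ hq₀
  obtain ⟨U, hU, r, hr, hr1, M, hM, H⟩ := H174.exists_pair k hq₀
  have hK := H174.Kn_pos hr
  refine ⟨U, hU, r / 64, by positivity, r, hr, 5 * H174.Kn r + M + 2, by positivity,
    fun c hc hcr => ⟨1, one_pos, fun q d hAdm X Y v hIn => ?_⟩⟩
  have hy : 0 < yl c d := lt_of_lt_of_le one_pos hAdm.len
  have hc1 : c ≤ 1 := hcr.trans (by linarith)
  have ht1 : (yl c d)⁻¹ ≤ 1 := inv_le_one_of_one_le₀ hAdm.len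
  have ht0 : 0 < (yl c d)⁻¹ := by positivity
  have hdp := norm_pos_iff.2 hAdm.d0
  have hdc : ‖d‖ ≤ c := by
    by_contra h
    have h1 : c / ‖d‖ ≤ 1 := (div_le_one hdp).2 (le_of_lt (not_le.1 h))
    have h2 : Real.log (c / ‖d‖) ≤ 0 := Real.log_nonpos (by positivity) h1
    have h3 : yl c d = 2 * Real.log (c / ‖d‖) := rfl
    linarith
  have hdr : 64 * ‖d‖ ≤ r := by linarith
  obtain ⟨P1, P2, hqM, -⟩ := H q hAdm.qU d hdr hAdm.mem
  have N : H174.NPt (q k.castSucc) d (xn k q X Y) X Y := H174.npt hIn.hXY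
  have hX8 : ‖X‖ ≤ r / 8 := hIn.hX.trans (by linarith)
  have hY8 : ‖Y‖ ≤ r / 8 := hIn.hY.trans (by linarith)
  have hX1 : ‖X‖ ≤ 1 := hX8.trans (by linarith)
  have hY1 : ‖Y‖ ≤ 1 := hY8.trans (by linarith)
  have hRr := H174.norm_le_Rr' P2 N hX1 hY1
  have hd2 : ‖d‖ ^ 2 ≤ 1 := by nlinarith [norm_nonneg d]
  refine ⟨fun j h1 h2 => ⟨H174.chiW_other P2 N hX8 hY8 h2 h1, H174.dchiW_other P2 N hX8 hY8 h2 h1⟩,
    ⟨H604.chiI_eq_zero hRr, H604.fderiv_chiI_eq_zero (Or.inl hRr)⟩, toPair P1, toPair P2,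
    fun j hj δ lX lY => ?_, fun j hj => ?_, ?_, ?_⟩
  · have h1 := H174.dchiW_nv (δ := δ) (lX := lX) (lY := lY) P2 N
    have h2 : ‖lX - lY‖ + ‖d‖ ^ 2 * (‖δ‖ + ‖lX‖ + ‖lY‖) ≤ 2 * (‖δ‖ + ‖lX‖ + ‖lY‖) := by
      have h3 := norm_sub_le lX lY
      have h4 : ‖d‖ ^ 2 * (‖δ‖ + ‖lX‖ + ‖lY‖) ≤ 1 * (‖δ‖ + ‖lX‖ + ‖lY‖) :=
        mul_le_mul_of_nonneg_right hd2 (by positivity)
      linarith [norm_nonneg δ]
    have h5 : H174.Kn r * (‖lX - lY‖ + ‖d‖ ^ 2 * (‖δ‖ + ‖lX‖ + ‖lY‖)) ≤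
        (5 * H174.Kn r + M + 2) * (‖δ‖ + ‖lX‖ + ‖lY‖) := by
      calc _ ≤ H174.Kn r * (2 * (‖δ‖ + ‖lX‖ + ‖lY‖)) := mul_le_mul_of_nonneg_left h2 hK.le
        _ = (2 * H174.Kn r) * (‖δ‖ + ‖lX‖ + ‖lY‖) := by ring
        _ ≤ _ := mul_le_mul_of_nonneg_right (by linarith) (by positivity)
    rcases hj with rfl | rfl
    · exact h1.2.trans h5
    · exact h1.1.trans h5
  · have h1 := H174.dchiW_euler P2 N hc hAdm.d0 hy hIn.hX hIn.hY
    have h5 : H174.Kn r * (3 + 2 * c ^ 2) * (yl c d)⁻¹ ≤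
        (5 * H174.Kn r + M + 2) * (yl c d)⁻¹ := by
      refine mul_le_mul_of_nonneg_right ?_ ht0.le
      have h6 : c ^ 2 ≤ 1 := by nlinarith
      nlinarith
    rcases hj with rfl | rfl
    · exact h1.2.trans h5
    · exact h1.1.trans h5
  · refine (norm_le_of_yl hc hAdm.d0 hy).trans ?_
    refine mul_le_mul_of_nonneg_right ?_ ht0.le
    linarith
  · linarith

/-- **The neck bounds of the one mark gauge** from the flat bounds. -/
theorem neckO_of (Φ : FlatFam) (hN : NeckF Φ) (hA : BaseA Φ) : NeckO (oneOf Φ) :=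
  neckO_of_cut Φ cutN hN hA

end Vale.Agent.P273.H225

end
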