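import Vale.Agent.P273.H214.OneOf
import Vale.Agent.P273.H730.One1

/-!
# P273, row ASY1 (helper225): inputs of the final neck bounds

For a family `Φ` of flat forms: `NeckF Φ` are the bounds of the flat form in the neck, before the
cut-offs, and `BaseA Φ` are the bounds of the vertical coefficients.
-/

noncomputable section

namespace Vale.Agent.P273.H225

open Set Filter H681 H95 H973 H730
open scoped Topology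

/-- **Flat neck bounds** (before the cut-offs): the text of `H730.NeckO` for the flat forms. -/
def NeckF (Φ : H214.FlatFam) : Prop := ∀ k : Fin 5, ∀ q₀ ∈ H828.XD k, ∃ U ∈ 𝓝 q₀, ∃ c₀ > 0,
  ∀ c, 0 < c → c ≤ c₀ → ∃ M₀ B : ℝ, 0 < M₀ ∧ 0 < B ∧
  ∀ q d, Adm k U c M₀ q d → ∀ X Y v, InNeck k c q d X Y v →
    (∀ (δ : C6) (lX lY : ℂ) (ξ : Fin 6 → ℝ), IsCl ξ →
      |Φ.η ξ (bd k q d) (xn k q X Y) v (nv k δ d X Y lX lY)| ≤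
        B * ‖ξ‖ * (‖δ‖ + ‖lX‖ + ‖lY‖) ∧
      (ξ k.castSucc = ξ k.succ →
        |Φ.η ξ (bd k q d) (xn k q X Y) v (nv k δ d X Y lX lY)| ≤
          B * ‖ξ‖ * (‖δ‖ + (‖X‖ + (yl c d)⁻¹) * ‖lX‖ + (‖Y‖ + (yl c d)⁻¹) * ‖lY‖)) ∧
      |Φ.η (alc k) (bd k q d) (xn k q X Y) v (nv k δ d X Y lX lY)| ≤
        B * (yl c d)⁻¹ * (‖δ‖ + ‖lX‖ + ‖lY‖)) ∧
    ∀ (ξ : Fin 6 → ℝ), IsCl ξ →
      |Φ.η ξ (bd k q d) (xn k q X Y) v (nv k 0 d X Y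
        (((yl c d)⁻¹ * Real.log (‖X‖ / c) : ℝ) : ℂ) (((yl c d)⁻¹ * Real.log (‖Y‖ / c) : ℝ) : ℂ))| ≤
        B * ‖ξ‖ * (yl c d)⁻¹ ∧
      |Φ.η (alc k) (bd k q d) (xn k q X Y) v (nv k 0 d X Y
        (((yl c d)⁻¹ * Real.log (‖X‖ / c) : ℝ) : ℂ) (((yl c d)⁻¹ * Real.log (‖Y‖ / c) : ℝ) : ℂ))| ≤
        B * ((yl c d)⁻¹) ^ 2

/-- **Vertical coefficients** near the divisor. The middle clause: for a class without period on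
the vanishing cycle the coefficient of the logarithm is `O (1 / y)`. -/
def BaseA (Φ : H214.FlatFam) : Prop := ∀ k : Fin 5, ∀ q₀ ∈ H828.XD k, ∃ U ∈ 𝓝 q₀, ∃ c₀ > 0,
  ∀ c, 0 < c → c ≤ c₀ → ∃ M₀ B : ℝ, 0 < M₀ ∧ 0 < B ∧
  ∀ q d, Adm k U c M₀ q d → ∀ (ξ : Fin 6 → ℝ), IsCl ξ →
    ‖Φ.A ξ (bd k q d)‖ ≤ B * ‖ξ‖ ∧
    (ξ k.castSucc = ξ k.succ → ∀ z : ℂ,
      |Φ.A ξ (bd k q d) (z, q k.castSucc * z)| ≤ B * ‖ξ‖ * (yl c d)⁻¹ * ‖z‖) ∧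
    ‖Φ.A (alc k) (bd k q d)‖ ≤ B * (yl c d)⁻¹

end Vale.Agent.P273.H225

end
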